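import Vale.Agent.P028.MathlibUsed
import Vale.Agent.P028.Line

/-!
# Finite weights with the Frostman property
-/

namespace Vale.P028.Y

open Finset Vale.P028

open Classical in
/-- Finite weights on points of `[0,1]`, of total mass at most one, with the Frostman property of
exponent `η` at the scales `≥ δ`. -/
def FW (η δ : ℝ) (Γ : Finset ℝ) (m : ℝ → ℝ) : Prop :=
  (∀ g ∈ Γ, 0 ≤ m g) ∧ (∀ g ∈ Γ, 0 ≤ g ∧ g ≤ 1) ∧ (∑ g ∈ Γ, m g ≤ 1) ∧
  ∀ x ρ : ℝ, δ ≤ ρ → 0 < ρ → ∑ g ∈ Γ, (if |g - x| ≤ ρ then m g else 0) ≤ 8 * ρ ^ η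

open Classical in
/-- The mass of the points `g` with `‖h g‖ < 2 s`. -/
noncomputable def kap (Γ : Finset ℝ) (m : ℝ → ℝ) (s : ℝ) (h : ℤ) : ℝ :=
  ∑ g ∈ Γ, if distInt (h * g) < 2 * s then m g else 0

theorem distInt_nonneg (t : ℝ) : 0 ≤ distInt t := abs_nonneg _

theorem distInt_le_half (t : ℝ) : distInt t ≤ 1 / 2 := abs_sub_round t

theorem distInt_neg (t : ℝ) : distInt (-t) = distInt t := by
  unfold distInt
  apply le_antisymm
  · have := round_le (-t) (-(round t))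
    refine this.trans (le_of_eq ?_)
    push_cast
    rw [← abs_neg]
    congr 1
    ring
  · have := round_le t (-(round (-t)))
    refine this.trans (le_of_eq ?_)
    push_cast
    rw [← abs_neg]
    congr 1
    ring

theorem kap_neg (Γ : Finset ℝ) (m : ℝ → ℝ) (s : ℝ) (h : ℤ) : kap Γ m s (-h) = kap Γ m s h := by
  unfold kap
  refine Finset.sum_congr rfl fun g _ => ?_
  have : ((-h : ℤ) : ℝ) * g = -((h : ℝ) * g) := by
    push_cast
    ring
  rw [this, distInt_neg]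

theorem kap_nonneg {Γ : Finset ℝ} {m : ℝ → ℝ} (hm : ∀ g ∈ Γ, 0 ≤ m g) (s : ℝ) (h : ℤ) :
    0 ≤ kap Γ m s h := by
  unfold kap
  refine Finset.sum_nonneg fun g hg => ?_
  split_ifs
  · exact hm g hg
  · exact le_rfl

theorem kap_le_mass {Γ : Finset ℝ} {m : ℝ → ℝ} (hm : ∀ g ∈ Γ, 0 ≤ m g) (s : ℝ) (h : ℤ) :
    kap Γ m s h ≤ ∑ g ∈ Γ, m g := by
  unfold kap
  refine Finset.sum_le_sum fun g hg => ?_
  split_ifs
  · exact le_rfl
  · exact hm g hg

theorem kap_mono {Γ : Finset ℝ} {m : ℝ → ℝ} (hm : ∀ g ∈ Γ, 0 ≤ m g) {s t : ℝ} (hst : s ≤ t)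
    (h : ℤ) : kap Γ m s h ≤ kap Γ m t h := by
  unfold kap
  refine Finset.sum_le_sum fun g hg => ?_
  split_ifs with h1 h2
  · exact le_rfl
  · exact absurd (lt_of_lt_of_le h1 (by linarith only [hst])) h2
  · exact hm g hg
  · exact le_rfl

end Vale.P028.Y
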