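import Vale.Agent.P028.MathlibUsed
import Vale.Agent.P028.Y.Defs

/-!
# Mean squares of the Fourier coefficients of finite Frostman weights
-/

namespace Vale.P028.Y

open Finset Vale.P028

/-- `e(t)`. -/
noncomputable def ee (t : ℝ) : ℂ := Complex.exp (2 * Real.pi * Complex.I * t)

theorem ee_add (s t : ℝ) : ee (s + t) = ee s * ee t := by
  unfold ee; rw [← Complex.exp_add]; congr 1; push_cast; ring

theorem ee_norm (t : ℝ) : ‖ee t‖ = 1 := by
  unfold ee
  rw [show (2 * Real.pi * Complex.I * (t : ℂ)) = ((2 * Real.pi * t : ℝ) : ℂ) * Complex.I by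
    push_cast; ring]
  exact Complex.norm_exp_ofReal_mul_I _

theorem ee_conj (t : ℝ) : (starRingEnd ℂ) (ee t) = ee (-t) := by
  unfold ee
  rw [← Complex.exp_conj]
  congr 1
  simp only [map_mul, Complex.conj_ofReal, Complex.conj_I, map_ofNat]
  push_cast; ring

theorem ee_int (n : ℤ) : ee n = 1 := by
  unfold ee
  rw [show (2 * Real.pi * Complex.I * ((n : ℝ) : ℂ)) = n * (2 * Real.pi * Complex.I) by
    push_cast; ring]
  exact Complex.exp_int_mul_two_pi_mul_I n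

/-- Dirichlet kernel. -/
noncomputable def DM (M : ℕ) (t : ℝ) : ℂ := ∑ a ∈ range M, ee (a * t)

theorem DM_le (M : ℕ) (t : ℝ) : ‖DM M t‖ ≤ M := by
  unfold DM
  refine (norm_sum_le _ _).trans ?_
  simp [ee_norm]

theorem ee_sub_one_norm (t : ℝ) (ht : |t| ≤ 1 / 2) : 4 * |t| ≤ ‖ee t - 1‖ := by
  have h1 : ‖ee t - 1‖ = 2 * |Real.sin (Real.pi * t)| := by
    have e1 : ee t - 1 = ee (t / 2) * (2 * Complex.I * (Real.sin (Real.pi * t) : ℂ)) := by
      have e2 : ee t = ee (t / 2) * ee (t / 2) := by rw [← ee_add]; congr 1; ring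
      have e3 : (1 : ℂ) = ee (t / 2) * ee (-(t / 2)) := by
        rw [← ee_add, add_neg_cancel]; unfold ee; simp
      have e4 : (2 * Complex.I * (Real.sin (Real.pi * t) : ℂ)) = ee (t / 2) - ee (-(t / 2)) := by
        unfold ee
        rw [Complex.ofReal_sin]
        have := Complex.sin (Real.pi * t : ℝ)
        rw [Complex.sin]
        push_cast
        have e5 : (2 * Real.pi * Complex.I * ((t : ℂ) / 2)) = (Real.pi : ℂ) * t * Complex.I := by ring
        have e6 : (2 * Real.pi * Complex.I * (-((t : ℂ) / 2))) = -((Real.pi : ℂ) * t) * Complex.I := by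
          ring
        rw [e5, e6]
        have hI : Complex.I * Complex.I = -1 := Complex.I_mul_I
        linear_combination (Complex.exp (-(↑Real.pi * ↑t) * Complex.I)
          - Complex.exp (↑Real.pi * ↑t * Complex.I)) * hI
      rw [e4, mul_sub, ← e2, ← e3]
    rw [e1, norm_mul, ee_norm, one_mul, norm_mul, norm_mul, Complex.norm_I, mul_one,
      Complex.norm_real, Real.norm_eq_abs]
    simp
  rw [h1]
  have h2 : 2 * |t| ≤ |Real.sin (Real.pi * t)| := by
    have h3 : |Real.sin (Real.pi * t)| = Real.sin (Real.pi * |t|) := by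
      rcases le_or_gt 0 t with h | h
      · rw [abs_of_nonneg h] at ht ⊢
        apply abs_of_nonneg
        apply Real.sin_nonneg_of_nonneg_of_le_pi (by positivity)
        nlinarith [Real.pi_pos]
      · rw [abs_of_neg h] at ht ⊢
        rw [show Real.pi * t = -(Real.pi * -t) by ring, Real.sin_neg, abs_neg]
        apply abs_of_nonneg
        apply Real.sin_nonneg_of_nonneg_of_le_pi
        · have := Real.pi_pos; nlinarith
        · nlinarith [Real.pi_pos]
    rw [h3]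
    have h4 := Real.mul_le_sin (x := Real.pi * |t|) (by positivity) (by nlinarith [Real.pi_pos])
    calc 2 * |t| = 2 / Real.pi * (Real.pi * |t|) := by field_simp
      _ ≤ _ := h4
  linarith

theorem DM_bound (M : ℕ) (t : ℝ) (ht : |t| ≤ 1 / 2) (ht0 : t ≠ 0) :
    ‖DM M t‖ ≤ 1 / (2 * |t|) := by
  have h0 : 0 < |t| := abs_pos.2 ht0
  have h1 := ee_sub_one_norm t ht
  have h2 : ee t ≠ 1 := by
    intro h; rw [h, sub_self, norm_zero] at h1; linarith
  have h3 : DM M t = (ee t ^ M - 1) / (ee t - 1) := by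
    unfold DM
    rw [← geom_sum_eq h2]
    apply sum_congr rfl
    intro a _
    unfold ee
    rw [← Complex.exp_nat_mul]
    congr 1
    push_cast; ring
  rw [h3, norm_div]
  have h4 : ‖ee t ^ M - 1‖ ≤ 2 := by
    refine (norm_sub_le _ _).trans ?_
    rw [norm_pow, ee_norm]; norm_num
  have h5 : 0 < ‖ee t - 1‖ := by linarith
  rw [div_le_div_iff₀ h5 (by positivity)]
  nlinarith [norm_nonneg (ee t ^ M - 1)]

theorem DM_int (M : ℕ) (t : ℝ) (n : ℤ) : DM M (t - n) = DM M t := by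
  unfold DM
  apply sum_congr rfl
  intro a _
  rw [mul_sub, sub_eq_add_neg, ee_add]
  have : -((a : ℝ) * n) = ((-(a * n) : ℤ) : ℝ) := by push_cast; ring
  rw [this, ee_int, mul_one]

/-- `‖D_R(t)‖ ≤ 1 / (2 ‖t‖)`. -/
theorem DM_distInt (R : ℕ) (t : ℝ) (ht : 0 < distInt t) : ‖DM R t‖ ≤ 1 / (2 * distInt t) := by
  rw [← DM_int R t (round t)]
  refine DM_bound R (t - round t) (abs_sub_round t) ?_
  intro h
  unfold distInt at ht
  rw [h, abs_zero] at ht
  exact lt_irrefl _ ht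

open Classical in
/-- Dyadic bound of the Dirichlet kernel. -/
theorem DM_dyadic (R : ℕ) (hR : 1 ≤ R) (t : ℝ) :
    ‖DM R t‖ ≤ ∑ i ∈ range (R + 1),
      (if distInt t ≤ 2 ^ i / (R : ℝ) then 2 * (R : ℝ) / 2 ^ i else 0) := by
  have hR0 : (0 : ℝ) < R := by exact_mod_cast hR
  have hex : ∃ i : ℕ, distInt t ≤ 2 ^ i / (R : ℝ) := by
    refine ⟨R, ?_⟩
    have h1 : ((R : ℝ)) ≤ 2 ^ R := by exact_mod_cast (Nat.lt_two_pow_self (n := R)).le
    have h2 : (1 : ℝ) ≤ 2 ^ R / (R : ℝ) := by rwa [le_div_iff₀ hR0, one_mul]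
    have := distInt_le_half t
    linarith only [this, h2]
  have hle : Nat.find hex ≤ R := by
    apply Nat.find_min'
    have h1 : ((R : ℝ)) ≤ 2 ^ R := by exact_mod_cast (Nat.lt_two_pow_self (n := R)).le
    have h2 : (1 : ℝ) ≤ 2 ^ R / (R : ℝ) := by rwa [le_div_iff₀ hR0, one_mul]
    have := distInt_le_half t
    linarith only [this, h2]
  have hspec := Nat.find_spec hex
  have hmin := fun {m : ℕ} => Nat.find_min (m := m) hex
  set i := Nat.find hex with hi
  have hterm : ‖DM R t‖ ≤ 2 * (R : ℝ) / 2 ^ i := by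
    rcases Nat.eq_zero_or_pos i with h0 | h0
    · rw [h0]
      have := DM_le R t
      norm_num
      linarith only [this, hR0]
    · have h1 := hmin (m := i - 1) (by omega)
      rw [not_le] at h1
      have hpos : 0 < distInt t := lt_trans (by positivity) h1
      refine (DM_distInt R t hpos).trans ?_
      have e : (2 : ℝ) ^ i = 2 * 2 ^ (i - 1) := by
        rw [← pow_succ']
        congr 1
        omega
      rw [e, div_le_div_iff₀ (by positivity) (by positivity)]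
      rw [div_lt_iff₀ hR0] at h1
      nlinarith only [h1, mul_pos hpos hR0]
  refine hterm.trans ?_
  calc 2 * (R : ℝ) / 2 ^ i = (if distInt t ≤ 2 ^ i / (R : ℝ) then 2 * (R : ℝ) / 2 ^ i else 0) := by
        rw [if_pos hspec]
    _ ≤ _ := Finset.single_le_sum
        (f := fun i => (if distInt t ≤ 2 ^ i / (R : ℝ) then 2 * (R : ℝ) / 2 ^ i else 0))
        (fun j _ => by
          split_ifs
          · positivity
          · exact le_rfl) (Finset.mem_range.2 (by omega))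

open Classical in
/-- The mass of the points with `‖l (g - x)‖ ≤ ρ`. -/
theorem near_mass {η δ : ℝ} {Γ : Finset ℝ} {m : ℝ → ℝ} (hF : FW η δ Γ m) (l : ℕ) (hl : 1 ≤ l)
    (x : ℝ) (hx : 0 ≤ x ∧ x ≤ 1) (ρ : ℝ) (hρ : 0 < ρ) (hδ : δ * l ≤ ρ) :
    ∑ g ∈ Γ, (if distInt (l * (g - x)) ≤ ρ then m g else 0) ≤ 24 * l * (ρ / l) ^ η := by
  obtain ⟨hm0, hΓ, hm1, hfr⟩ := hF
  have hl0 : (0 : ℝ) < l := by exact_mod_cast hl
  have hl1 : (1 : ℝ) ≤ l := by exact_mod_cast hl
  have h1 : ∀ g ∈ Γ, (if distInt (l * (g - x)) ≤ ρ then m g else 0) ≤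
      ∑ j ∈ Icc (-(l : ℤ)) l, (if |g - (x + j / l)| ≤ ρ / l then m g else 0) := by
    intro g hg
    have hnn : ∀ j ∈ Icc (-(l : ℤ)) (l : ℤ),
        0 ≤ (if |g - (x + (j : ℝ) / l)| ≤ ρ / l then m g else 0) := by
      intro j _
      split_ifs
      · exact hm0 g hg
      · exact le_rfl
    split_ifs with hd
    · have hgx : |g - x| ≤ 1 := by
        rw [abs_le]
        have := hΓ g hg
        constructor <;> linarith only [this.1, this.2, hx.1, hx.2]
      have hlg : |(l : ℝ) * (g - x)| ≤ l := by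
        rw [abs_mul, abs_of_pos hl0]
        nlinarith only [hgx, hl0]
      have hj : round ((l : ℝ) * (g - x)) ∈ Icc (-(l : ℤ)) (l : ℤ) := by
        have h2 := abs_sub_round ((l : ℝ) * (g - x))
        rw [abs_le] at h2 hlg
        rw [Finset.mem_Icc]
        constructor
        · have : (-(l : ℝ) - 1) < (round ((l : ℝ) * (g - x)) : ℝ) := by
            linarith only [h2.2, hlg.1]
          have h3 : (-(l : ℤ) - 1) < round ((l : ℝ) * (g - x)) := by exact_mod_cast this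
          omega
        · have : (round ((l : ℝ) * (g - x)) : ℝ) < l + 1 := by
            linarith only [h2.1, hlg.2]
          have h3 : round ((l : ℝ) * (g - x)) < (l : ℤ) + 1 := by exact_mod_cast this
          omega
      have hc : |g - (x + (round ((l : ℝ) * (g - x)) : ℝ) / l)| ≤ ρ / l := by
        rw [le_div_iff₀ hl0]
        have e : |g - (x + (round ((l : ℝ) * (g - x)) : ℝ) / l)| * l =
            distInt ((l : ℝ) * (g - x)) := by
          unfold distInt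
          rw [← abs_of_pos hl0, ← abs_mul, abs_of_pos hl0]
          congr 1
          field_simp
          ring
        rw [e]
        exact hd
      calc m g = (if |g - (x + (round ((l : ℝ) * (g - x)) : ℝ) / l)| ≤ ρ / l then m g else 0) := by
            rw [if_pos hc]
        _ ≤ _ := Finset.single_le_sum
            (f := fun j : ℤ => (if |g - (x + (j : ℝ) / l)| ≤ ρ / l then m g else 0)) hnn hj
    · exact Finset.sum_nonneg hnn
  have hρl : 0 < ρ / l := div_pos hρ hl0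
  have hδl : δ ≤ ρ / l := by rwa [le_div_iff₀ hl0]
  calc ∑ g ∈ Γ, (if distInt (l * (g - x)) ≤ ρ then m g else 0)
      ≤ ∑ g ∈ Γ, ∑ j ∈ Icc (-(l : ℤ)) l, (if |g - (x + j / l)| ≤ ρ / l then m g else 0) :=
        Finset.sum_le_sum h1
    _ = ∑ j ∈ Icc (-(l : ℤ)) l, ∑ g ∈ Γ, (if |g - (x + j / l)| ≤ ρ / l then m g else 0) :=
        Finset.sum_comm
    _ ≤ ∑ j ∈ Icc (-(l : ℤ)) (l : ℤ), 8 * (ρ / l) ^ η :=
        Finset.sum_le_sum fun j _ => hfr _ _ hδl hρl
    _ = (2 * l + 1) * (8 * (ρ / l) ^ η) := by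
        rw [Finset.sum_const, Int.card_Icc, nsmul_eq_mul]
        congr 1
        have : ((l : ℤ) + 1 - -(l : ℤ)).toNat = 2 * l + 1 := by omega
        rw [this]
        push_cast
        ring
    _ ≤ 24 * l * (ρ / l) ^ η := by
        have h3 : 0 ≤ (ρ / l) ^ η := Real.rpow_nonneg hρl.le _
        nlinarith only [h3, hl1, mul_nonneg (sub_nonneg.2 hl1) h3]

/-- Small `h`: pointwise bound of `kap`. -/
theorem kap_small {η δ : ℝ} {Γ : Finset ℝ} {m : ℝ → ℝ} (hF : FW η δ Γ m) (l : ℕ) (hl : 1 ≤ l)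
    (s : ℝ) (hs : 0 < s) (hδ : δ * l ≤ 2 * s) :
    kap Γ m s l ≤ 24 * l * (2 * s / l) ^ η := by
  classical
  have h1 := near_mass hF l hl 0 ⟨le_rfl, zero_le_one⟩ (2 * s) (by linarith) hδ
  refine le_trans ?_ h1
  unfold kap
  refine Finset.sum_le_sum fun g hg => ?_
  have hm := hF.1 g hg
  have e : ((l : ℤ) : ℝ) * g = (l : ℝ) * (g - 0) := by
    push_cast
    ring
  rw [e]
  by_cases h2 : distInt ((l : ℝ) * (g - 0)) < 2 * s
  · rw [if_pos h2, if_pos h2.le]
  · rw [if_neg h2]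
    split_ifs
    · exact hm
    · exact le_rfl

/-- Fourier coefficients. -/
noncomputable def muh (Γ : Finset ℝ) (m : ℝ → ℝ) (k : ℤ) : ℂ := ∑ g ∈ Γ, (m g : ℂ) * ee (k * g)

theorem muh_neg (Γ : Finset ℝ) (m : ℝ → ℝ) (k : ℤ) : ‖muh Γ m (-k)‖ = ‖muh Γ m k‖ := by
  have : muh Γ m (-k) = (starRingEnd ℂ) (muh Γ m k) := by
    unfold muh
    rw [map_sum]
    refine Finset.sum_congr rfl fun g _ => ?_
    rw [map_mul, Complex.conj_ofReal, ee_conj]
    congr 2
    push_cast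
    ring
  rw [this, RCLike.norm_conj]

theorem geom_half (R : ℕ) : ∑ i ∈ range R, ((1 / 2 : ℝ) ^ (1 / 2 : ℝ)) ^ i ≤ 4 := by
  set a : ℝ := (1 / 2 : ℝ) ^ (1 / 2 : ℝ) with ha
  have ha0 : 0 ≤ a := Real.rpow_nonneg (by norm_num) _
  have ha2 : a ^ 2 = 1 / 2 := by
    rw [ha, ← Real.rpow_natCast, ← Real.rpow_mul (by norm_num)]
    norm_num
  have ha1 : a ≤ 3 / 4 := by
    by_contra h
    rw [not_le] at h
    nlinarith only [h, ha2]
  have hne : a ≠ 1 := by
    intro h1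
    linarith only [ha1, h1]
  rw [geom_sum_eq hne, div_le_iff_of_neg (by linarith only [ha1])]
  have := pow_nonneg ha0 R
  linarith only [this, ha1]

/-- The mass times the Dirichlet kernel. -/
theorem kernel_mass {η δ : ℝ} (_hη : 0 < η) (hη1 : η ≤ 1 / 2) {Γ : Finset ℝ} {m : ℝ → ℝ}
    (hF : FW η δ Γ m) (l R : ℕ) (hl : 1 ≤ l) (hR : 1 ≤ R)
    (x : ℝ) (hx : 0 ≤ x ∧ x ≤ 1) (hδ : δ * l * R ≤ 1) :
    ∑ g ∈ Γ, m g * ‖DM R (l * (g - x))‖ ≤ 192 * ((l : ℝ) * R) ^ (1 - η) := by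
  classical
  have hl0 : (0 : ℝ) < l := by exact_mod_cast hl
  have hR0 : (0 : ℝ) < R := by exact_mod_cast hR
  have hlR : 0 < (l : ℝ) * R := mul_pos hl0 hR0
  have h1 : ∑ g ∈ Γ, m g * ‖DM R (l * (g - x))‖ ≤
      ∑ i ∈ range (R + 1), (2 * (R : ℝ) / 2 ^ i) *
        ∑ g ∈ Γ, (if distInt (l * (g - x)) ≤ 2 ^ i / (R : ℝ) then m g else 0) := by
    calc ∑ g ∈ Γ, m g * ‖DM R (l * (g - x))‖
        ≤ ∑ g ∈ Γ, m g * ∑ i ∈ range (R + 1),
          (if distInt (l * (g - x)) ≤ 2 ^ i / (R : ℝ) then 2 * (R : ℝ) / 2 ^ i else 0) :=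
          Finset.sum_le_sum fun g hg => mul_le_mul_of_nonneg_left (DM_dyadic R hR _) (hF.1 g hg)
      _ = _ := by
          simp only [Finset.mul_sum]
          rw [Finset.sum_comm]
          refine Finset.sum_congr rfl fun i _ => Finset.sum_congr rfl fun g _ => ?_
          split_ifs
          · ring
          · ring
  refine h1.trans ?_
  have h2 : ∀ i ∈ range (R + 1), (2 * (R : ℝ) / 2 ^ i) *
        ∑ g ∈ Γ, (if distInt (l * (g - x)) ≤ 2 ^ i / (R : ℝ) then m g else 0) ≤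
      48 * ((l : ℝ) * R) ^ (1 - η) * ((1 / 2 : ℝ) ^ (1 / 2 : ℝ)) ^ i := by
    intro i _
    have hp : (0 : ℝ) < 2 ^ i := by positivity
    have hρ : (0 : ℝ) < 2 ^ i / (R : ℝ) := by positivity
    have h3 := near_mass hF l hl x hx (2 ^ i / (R : ℝ)) hρ (by
      rw [le_div_iff₀ hR0]
      have : (1 : ℝ) ≤ 2 ^ i := one_le_pow₀ (by norm_num)
      linarith only [this, hδ])
    have h4 : 0 ≤ 2 * (R : ℝ) / 2 ^ i := by positivity
    refine (mul_le_mul_of_nonneg_left h3 h4).trans ?_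
    have e1 : (2 ^ i / (R : ℝ) / l) ^ η = ((2 : ℝ) ^ i) ^ η / ((l : ℝ) * R) ^ η := by
      rw [div_div, Real.div_rpow hp.le (by positivity), mul_comm (R : ℝ) l]
    have e2 : ((l : ℝ) * R) ^ (1 - η) = ((l : ℝ) * R) / ((l : ℝ) * R) ^ η := by
      rw [Real.rpow_sub hlR, Real.rpow_one]
    have e3 : ((2 : ℝ) ^ i) ^ η / 2 ^ i ≤ ((1 / 2 : ℝ) ^ (1 / 2 : ℝ)) ^ i := by
      have e4 : ((1 / 2 : ℝ) ^ (1 / 2 : ℝ)) ^ i = ((2 : ℝ) ^ i) ^ (1 / 2 : ℝ) / 2 ^ i := by
        rw [← Real.rpow_natCast, ← Real.rpow_mul (by norm_num), ← Real.rpow_natCast 2 i,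
          ← Real.rpow_mul (by norm_num), one_div, Real.inv_rpow (by norm_num),
          ← Real.rpow_neg (by norm_num), ← Real.rpow_sub (by norm_num)]
        congr 1
        ring
      rw [e4]
      refine div_le_div_of_nonneg_right ?_ hp.le
      exact Real.rpow_le_rpow_of_exponent_le (one_le_pow₀ (by norm_num)) hη1
    have hη0 : 0 < ((l : ℝ) * R) ^ η := Real.rpow_pos_of_pos hlR _
    rw [e1, e2]
    calc 2 * (R : ℝ) / 2 ^ i * (24 * l * (((2 : ℝ) ^ i) ^ η / ((l : ℝ) * R) ^ η))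
        = 48 * ((l : ℝ) * R / ((l : ℝ) * R) ^ η) * (((2 : ℝ) ^ i) ^ η / 2 ^ i) := by
          field_simp
          ring
      _ ≤ _ := mul_le_mul_of_nonneg_left e3 (by positivity)
  calc _ ≤ ∑ i ∈ range (R + 1), 48 * ((l : ℝ) * R) ^ (1 - η) * ((1 / 2 : ℝ) ^ (1 / 2 : ℝ)) ^ i :=
        Finset.sum_le_sum h2
    _ = 48 * ((l : ℝ) * R) ^ (1 - η) * ∑ i ∈ range (R + 1), ((1 / 2 : ℝ) ^ (1 / 2 : ℝ)) ^ i := by
        rw [Finset.mul_sum]
    _ ≤ 48 * ((l : ℝ) * R) ^ (1 - η) * 4 :=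
        mul_le_mul_of_nonneg_left (geom_half _) (by positivity)
    _ = _ := by ring

/-- Mean square of the Fourier coefficients along an arithmetic progression. -/
theorem mean_square {η δ : ℝ} (hη : 0 < η) (hη1 : η ≤ 1 / 2) {Γ : Finset ℝ} {m : ℝ → ℝ}
    (hF : FW η δ Γ m) (l R : ℕ) (hl : 1 ≤ l) (hR : 1 ≤ R) (hδ : δ * l * R ≤ 1) (a : ℤ) :
    ∑ h ∈ range R, ‖muh Γ m (l * (a + h))‖ ^ 2 ≤ 192 * ((l : ℝ) * R) ^ (1 - η) := by
  have hB : 0 ≤ 192 * ((l : ℝ) * R) ^ (1 - η) := by positivity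
  have key : ((∑ h ∈ range R, ‖muh Γ m (l * (a + h))‖ ^ 2 : ℝ) : ℂ) =
      ∑ g' ∈ Γ, ∑ g ∈ Γ, (m g' : ℂ) * ((m g : ℂ) * (ee (l * a * (g - g')) * DM R (l * (g - g')))) := by
    push_cast
    calc ∑ h ∈ range R, ((‖muh Γ m (l * (a + h))‖ : ℂ)) ^ 2
        = ∑ h ∈ range R, muh Γ m (l * (a + h)) * (starRingEnd ℂ) (muh Γ m (l * (a + h))) := by
          refine Finset.sum_congr rfl fun h _ => ?_
          rw [Complex.mul_conj, Complex.normSq_eq_norm_sq]
          push_cast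
          rfl
      _ = ∑ h ∈ range R, ∑ g' ∈ Γ, ∑ g ∈ Γ,
            (m g' : ℂ) * ((m g : ℂ) * (ee (l * a * (g - g')) * ee (h * (l * (g - g'))))) := by
          refine Finset.sum_congr rfl fun h _ => ?_
          unfold muh
          rw [map_sum, Finset.sum_mul_sum, Finset.sum_comm]
          refine Finset.sum_congr rfl fun g' _ => Finset.sum_congr rfl fun g _ => ?_
          rw [map_mul, Complex.conj_ofReal, ee_conj]
          have e : ee (l * a * (g - g')) * ee (h * (l * (g - g'))) =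
              ee (((l * (a + h) : ℤ) : ℝ) * g) * ee (-(((l * (a + h) : ℤ) : ℝ) * g')) := by
            rw [← ee_add, ← ee_add]
            congr 1
            push_cast
            ring
          rw [e]
          ring
      _ = _ := by
          rw [Finset.sum_comm]
          refine Finset.sum_congr rfl fun g' _ => ?_
          rw [Finset.sum_comm]
          refine Finset.sum_congr rfl fun g _ => ?_
          unfold DM
          rw [Finset.mul_sum, Finset.mul_sum, Finset.mul_sum]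
  have h0 : 0 ≤ ∑ h ∈ range R, ‖muh Γ m (l * (a + h))‖ ^ 2 :=
    Finset.sum_nonneg fun _ _ => by positivity
  have h1 : ∑ h ∈ range R, ‖muh Γ m (l * (a + h))‖ ^ 2 =
      ‖((∑ h ∈ range R, ‖muh Γ m (l * (a + h))‖ ^ 2 : ℝ) : ℂ)‖ := by
    rw [Complex.norm_real, Real.norm_eq_abs, abs_of_nonneg h0]
  rw [h1, key]
  calc ‖∑ g' ∈ Γ, ∑ g ∈ Γ, (m g' : ℂ) * ((m g : ℂ) * (ee (l * a * (g - g')) * DM R (l * (g - g'))))‖
      ≤ ∑ g' ∈ Γ, ∑ g ∈ Γ, m g' * (m g * ‖DM R (l * (g - g'))‖) := by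
        refine (norm_sum_le _ _).trans (Finset.sum_le_sum fun g' hg' => ?_)
        refine (norm_sum_le _ _).trans (Finset.sum_le_sum fun g hg => ?_)
        rw [norm_mul, norm_mul, norm_mul, ee_norm, one_mul, Complex.norm_real, Complex.norm_real,
          Real.norm_of_nonneg (hF.1 g' hg'), Real.norm_of_nonneg (hF.1 g hg)]
    _ = ∑ g' ∈ Γ, m g' * ∑ g ∈ Γ, m g * ‖DM R (l * (g - g'))‖ := by
        refine Finset.sum_congr rfl fun g' _ => ?_
        rw [Finset.mul_sum]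
    _ ≤ ∑ g' ∈ Γ, m g' * (192 * ((l : ℝ) * R) ^ (1 - η)) :=
        Finset.sum_le_sum fun g' hg' => mul_le_mul_of_nonneg_left
          (kernel_mass hη hη1 hF l R hl hR g' (hF.2.1 g' hg') hδ) (hF.1 g' hg')
    _ = (∑ g' ∈ Γ, m g') * (192 * ((l : ℝ) * R) ^ (1 - η)) := by rw [Finset.sum_mul]
    _ ≤ 1 * (192 * ((l : ℝ) * R) ^ (1 - η)) := mul_le_mul_of_nonneg_right hF.2.2.1 hB
    _ = _ := one_mul _

/-- Mean of the Fourier coefficients along an arithmetic progression. -/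
theorem mean_abs {η δ : ℝ} (hη : 0 < η) (hη1 : η ≤ 1 / 2) {Γ : Finset ℝ} {m : ℝ → ℝ}
    (hF : FW η δ Γ m) (l R : ℕ) (hl : 1 ≤ l) (hR : 1 ≤ R) (hδ : δ * l * R ≤ 1) (a : ℤ) :
    ∑ h ∈ range R, ‖muh Γ m (l * (a + h))‖ ≤ 14 * (l : ℝ) ^ (1 / 2 : ℝ) * (R : ℝ) ^ (1 - η / 2) := by
  have hl0 : (0 : ℝ) < l := by exact_mod_cast hl
  have hR0 : (0 : ℝ) < R := by exact_mod_cast hR
  have hl1 : (1 : ℝ) ≤ l := by exact_mod_cast hl
  have h1 := mean_square hη hη1 hF l R hl hR hδ a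
  have h2 : (∑ h ∈ range R, ‖muh Γ m (l * (a + h))‖) ^ 2 ≤
      R * ∑ h ∈ range R, ‖muh Γ m (l * (a + h))‖ ^ 2 := by
    have := sq_sum_le_card_mul_sum_sq (s := range R) (f := fun h => ‖muh Γ m (l * (a + h))‖)
    rwa [Finset.card_range] at this
  have hX : 0 ≤ 14 * (l : ℝ) ^ (1 / 2 : ℝ) * (R : ℝ) ^ (1 - η / 2) := by positivity
  refine abs_le_of_sq_le_sq' ?_ hX |>.2
  refine h2.trans ?_
  have e1 : (14 * (l : ℝ) ^ (1 / 2 : ℝ) * (R : ℝ) ^ (1 - η / 2)) ^ 2 =
      196 * (l : ℝ) * (R : ℝ) ^ (2 - η) := by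
    rw [mul_pow, mul_pow, ← Real.rpow_natCast, ← Real.rpow_natCast, ← Real.rpow_mul hl0.le,
      ← Real.rpow_natCast, ← Real.rpow_mul hR0.le]
    norm_num
    left
    ring_nf
  have e2 : (R : ℝ) ^ (2 - η) = R * (R : ℝ) ^ (1 - η) := by
    rw [show (2 - η) = 1 + (1 - η) by ring, Real.rpow_add hR0, Real.rpow_one]
  have e3 : (l : ℝ) ^ (1 - η) ≤ l := by
    calc (l : ℝ) ^ (1 - η) ≤ (l : ℝ) ^ (1 : ℝ) :=
          Real.rpow_le_rpow_of_exponent_le hl1 (by linarith only [hη])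
      _ = l := Real.rpow_one _
  have e4 : ((l : ℝ) * R) ^ (1 - η) = (l : ℝ) ^ (1 - η) * (R : ℝ) ^ (1 - η) :=
    Real.mul_rpow hl0.le hR0.le
  have hRη : 0 ≤ (R : ℝ) ^ (1 - η) := by positivity
  rw [e1, e2]
  calc (R : ℝ) * ∑ h ∈ range R, ‖muh Γ m (l * (a + h))‖ ^ 2
      ≤ R * (192 * ((l : ℝ) ^ (1 - η) * (R : ℝ) ^ (1 - η))) := by
        rw [← e4]
        exact mul_le_mul_of_nonneg_left h1 hR0.le
    _ ≤ R * (192 * (l * (R : ℝ) ^ (1 - η))) := by
        refine mul_le_mul_of_nonneg_left ?_ hR0.le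
        refine mul_le_mul_of_nonneg_left ?_ (by norm_num)
        exact mul_le_mul_of_nonneg_right e3 hRη
    _ ≤ 196 * l * (R * (R : ℝ) ^ (1 - η)) := by
        have : 0 ≤ (l : ℝ) * (R * (R : ℝ) ^ (1 - η)) := by positivity
        nlinarith only [this]

end Vale.P028.Y
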