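import Vale.Agent.P028.MathlibUsed
import Vale.Agent.P028.Y.Fou

/-!
# Main term and error of the mass of `‖h g‖ < 2 s`
-/

namespace Vale.P028.Y

open Finset Vale.P028

theorem cos_ge {x : ℝ} (hx : |x| ≤ Real.pi / 4) : Real.sqrt 2 / 2 ≤ Real.cos x := by
  rw [← Real.cos_pi_div_four, ← Real.cos_abs x]
  refine Real.cos_le_cos_of_nonneg_of_le_pi (abs_nonneg x) ?_ hx
  have := Real.pi_pos
  linarith only [this]

theorem ee_re (t : ℝ) : (ee t).re = Real.cos (2 * Real.pi * t) := by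
  unfold ee
  rw [show (2 * Real.pi * Complex.I * (t : ℂ)) = ((2 * Real.pi * t : ℝ) : ℂ) * Complex.I by
    push_cast; ring]
  exact Complex.exp_ofReal_mul_I_re _

/-- Lower bound of the kernel near the integers. -/
theorem DM_lower (K : ℕ) (y : ℝ) (hy : distInt y * (8 * K) ≤ 1) :
    (K : ℝ) ^ 2 / 2 ≤ ‖DM K y‖ ^ 2 := by
  rw [← DM_int K y (round y)]
  set t : ℝ := y - round y with ht
  have hty : |t| * (8 * K) ≤ 1 := hy
  have hre : (K : ℝ) * (Real.sqrt 2 / 2) ≤ (DM K t).re := by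
    unfold DM
    rw [Complex.re_sum]
    calc (K : ℝ) * (Real.sqrt 2 / 2) = ∑ a ∈ range K, Real.sqrt 2 / 2 := by
          rw [Finset.sum_const, Finset.card_range, nsmul_eq_mul]
      _ ≤ _ := Finset.sum_le_sum fun a ha => by
          rw [ee_re]
          apply cos_ge
          have ha1 : (a : ℝ) ≤ K := by exact_mod_cast (Finset.mem_range.1 ha).le
          rw [abs_mul, abs_mul, abs_mul, abs_of_pos Real.pi_pos, abs_of_pos (by norm_num : (0:ℝ) < 2),
            abs_of_nonneg (Nat.cast_nonneg a)]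
          have h1 : (a : ℝ) * |t| ≤ 1 / 8 := by
            have := mul_le_mul_of_nonneg_right ha1 (abs_nonneg t)
            linarith only [this, hty]
          have := mul_le_mul_of_nonneg_left h1 Real.pi_pos.le
          linarith only [this]
  have h2 : 0 ≤ (K : ℝ) * (Real.sqrt 2 / 2) := by positivity
  have h3 : (DM K t).re ≤ ‖DM K t‖ := Complex.re_le_norm _
  have h4 : ((K : ℝ) * (Real.sqrt 2 / 2)) ^ 2 ≤ ‖DM K t‖ ^ 2 :=
    pow_le_pow_left₀ h2 (hre.trans h3) 2
  have h5 : ((K : ℝ) * (Real.sqrt 2 / 2)) ^ 2 = (K : ℝ) ^ 2 / 2 := by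
    have : (Real.sqrt 2) ^ 2 = 2 := Real.sq_sqrt (by norm_num)
    rw [mul_pow, div_pow, this]
    ring
  rwa [h5] at h4

theorem sum_DM_sq {Γ : Finset ℝ} {m : ℝ → ℝ} (K : ℕ) (h : ℤ) :
    ∑ g ∈ Γ, m g * ‖DM K (h * g)‖ ^ 2 ≤
      ∑ a ∈ range K, ∑ b ∈ range K, ‖muh Γ m (((a : ℤ) - b) * h)‖ := by
  have key : ((∑ g ∈ Γ, m g * ‖DM K (h * g)‖ ^ 2 : ℝ) : ℂ) =
      ∑ a ∈ range K, ∑ b ∈ range K, muh Γ m (((a : ℤ) - b) * h) := by
    push_cast
    calc ∑ g ∈ Γ, (m g : ℂ) * (‖DM K (h * g)‖ : ℂ) ^ 2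
        = ∑ g ∈ Γ, (m g : ℂ) * (DM K (h * g) * (starRingEnd ℂ) (DM K (h * g))) := by
          refine Finset.sum_congr rfl fun g _ => ?_
          rw [Complex.mul_conj, Complex.normSq_eq_norm_sq]
          push_cast
          rfl
      _ = ∑ g ∈ Γ, ∑ a ∈ range K, ∑ b ∈ range K, (m g : ℂ) * ee ((((a : ℤ) - b) * h : ℤ) * g) := by
          refine Finset.sum_congr rfl fun g _ => ?_
          unfold DM
          rw [map_sum, Finset.sum_mul_sum, Finset.mul_sum]
          refine Finset.sum_congr rfl fun a _ => ?_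
          rw [Finset.mul_sum]
          refine Finset.sum_congr rfl fun b _ => ?_
          rw [ee_conj, ← ee_add]
          congr 2
          push_cast
          ring
      _ = _ := by
          rw [Finset.sum_comm]
          refine Finset.sum_congr rfl fun a _ => ?_
          rw [Finset.sum_comm]
          rfl
  calc ∑ g ∈ Γ, m g * ‖DM K (h * g)‖ ^ 2 ≤ ‖((∑ g ∈ Γ, m g * ‖DM K (h * g)‖ ^ 2 : ℝ) : ℂ)‖ := by
        rw [Complex.norm_real]
        exact le_abs_self _
    _ = ‖∑ a ∈ range K, ∑ b ∈ range K, muh Γ m (((a : ℤ) - b) * h)‖ := by rw [key]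
    _ ≤ _ := (norm_sum_le _ _).trans (Finset.sum_le_sum fun a _ => norm_sum_le _ _)

/-- Main term and error term of `kap`. -/
theorem tau_exists {η δ : ℝ} (hη : 0 < η) (hη1 : η ≤ 1 / 2) {Γ : Finset ℝ} {m : ℝ → ℝ}
    (hF : FW η δ Γ m) (s : ℝ) (hs : 0 < s) :
    ∃ τ : ℤ → ℝ, (∀ h, 0 ≤ τ h) ∧ (∀ h, kap Γ m s h ≤ 64 * s * (∑ g ∈ Γ, m g) + τ h) ∧
      ∀ (a : ℤ) (R : ℕ), 1 ≤ R → δ * R ≤ s →
        ∑ h ∈ range R, τ (a + h) ≤ 28 * s ^ (-(1 / 2) : ℝ) * (R : ℝ) ^ (1 - η / 2) := by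
  classical
  have hM0 : 0 ≤ ∑ g ∈ Γ, m g := Finset.sum_nonneg hF.1
  rcases lt_or_ge (1 / 16) s with h16 | h16
  · refine ⟨fun _ => 0, fun _ => le_rfl, ?_, ?_⟩
    · intro h
      have := kap_le_mass hF.1 s h
      have h2 : (∑ g ∈ Γ, m g) ≤ 64 * s * ∑ g ∈ Γ, m g := by nlinarith only [hM0, h16]
      linarith only [this, h2]
    · intro a R _ _
      rw [Finset.sum_const_zero]
      positivity
  set K : ℕ := ⌊1 / (16 * s)⌋₊ with hK
  have h1s : 1 ≤ 1 / (16 * s) := by
    rw [le_div_iff₀ (by positivity)]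
    linarith only [h16]
  have hK1 : 1 ≤ K := Nat.le_floor (by simpa only [Nat.cast_one] using h1s)
  have hKle : (K : ℝ) ≤ 1 / (16 * s) := Nat.floor_le (by linarith only [h1s])
  have hKlt : 1 / (16 * s) < (K : ℝ) + 1 := Nat.lt_floor_add_one _
  have hK0 : (0 : ℝ) < K := by exact_mod_cast hK1
  have hK1' : (1 : ℝ) ≤ K := by exact_mod_cast hK1
  have hKs : (K : ℝ) * (16 * s) ≤ 1 := by rwa [le_div_iff₀ (by positivity)] at hKle
  have hKs2 : 1 ≤ (K : ℝ) * (32 * s) := by
    rw [div_lt_iff₀ (by positivity)] at hKlt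
    nlinarith only [hKlt, hK1', hs]
  set τ : ℤ → ℝ := fun h => (2 / (K : ℝ) ^ 2) * ∑ a ∈ range K, ∑ b ∈ range K,
    (if a = b then 0 else ‖muh Γ m (((a : ℤ) - b) * h)‖) with hτ
  have hcoef : 0 ≤ 2 / (K : ℝ) ^ 2 := by positivity
  have hmu0 : ‖muh Γ m 0‖ = ∑ g ∈ Γ, m g := by
    unfold muh
    have : ∑ g ∈ Γ, (m g : ℂ) * ee ((0 : ℤ) * g) = ((∑ g ∈ Γ, m g : ℝ) : ℂ) := by
      push_cast
      refine Finset.sum_congr rfl fun g _ => ?_
      rw [show ee (0 * g) = 1 by
        unfold ee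
        simp, mul_one]
    rw [this, Complex.norm_real, Real.norm_of_nonneg hM0]
  refine ⟨τ, ?_, ?_, ?_⟩
  · intro h
    simp only [hτ]
    refine mul_nonneg hcoef (Finset.sum_nonneg fun a _ => Finset.sum_nonneg fun b _ => ?_)
    split_ifs
    · exact le_rfl
    · exact norm_nonneg _
  · intro h
    have h1 : kap Γ m s h ≤ ∑ g ∈ Γ, (2 / (K : ℝ) ^ 2) * (m g * ‖DM K (h * g)‖ ^ 2) := by
      unfold kap
      refine Finset.sum_le_sum fun g hg => ?_
      have hm := hF.1 g hg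
      split_ifs with hd
      · have h2 := DM_lower K ((h : ℝ) * g) (by nlinarith only [hd, hKs, hK0])
        have h3 : 1 ≤ (2 / (K : ℝ) ^ 2) * ‖DM K (h * g)‖ ^ 2 := by
          calc (1 : ℝ) = (2 / (K : ℝ) ^ 2) * ((K : ℝ) ^ 2 / 2) := by field_simp
            _ ≤ _ := mul_le_mul_of_nonneg_left h2 hcoef
        nlinarith only [mul_le_mul_of_nonneg_left h3 hm]
      · positivity
    rw [← Finset.mul_sum] at h1
    have h2 := mul_le_mul_of_nonneg_left (sum_DM_sq (Γ := Γ) (m := m) K h) hcoef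
    have h3 : ∑ a ∈ range K, ∑ b ∈ range K, ‖muh Γ m (((a : ℤ) - b) * h)‖ =
        K * (∑ g ∈ Γ, m g) + ∑ a ∈ range K, ∑ b ∈ range K,
          (if a = b then 0 else ‖muh Γ m (((a : ℤ) - b) * h)‖) := by
      have e1 : ∀ a ∈ range K, ∑ b ∈ range K, ‖muh Γ m (((a : ℤ) - b) * h)‖ =
          (∑ g ∈ Γ, m g) + ∑ b ∈ range K,
            (if a = b then 0 else ‖muh Γ m (((a : ℤ) - b) * h)‖) := by
        intro a ha
        have e2 : (∑ g ∈ Γ, m g) = ∑ b ∈ range K, (if a = b then (∑ g ∈ Γ, m g) else 0) := by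
          rw [Finset.sum_ite_eq, if_pos ha]
        rw [e2, ← Finset.sum_add_distrib]
        refine Finset.sum_congr rfl fun b _ => ?_
        by_cases hab : a = b
        · rw [if_pos hab, if_pos hab, hab, sub_self, zero_mul, hmu0, add_zero]
        · rw [if_neg hab, if_neg hab, zero_add]
      rw [Finset.sum_congr rfl e1, Finset.sum_add_distrib, Finset.sum_const, Finset.card_range,
        nsmul_eq_mul]
    rw [h3, mul_add] at h2
    have h4 : 2 / (K : ℝ) ^ 2 * (K * ∑ g ∈ Γ, m g) ≤ 64 * s * ∑ g ∈ Γ, m g := by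
      have e : 2 / (K : ℝ) ^ 2 * (K * ∑ g ∈ Γ, m g) = 2 / (K : ℝ) * ∑ g ∈ Γ, m g := by
        field_simp
      rw [e]
      refine mul_le_mul_of_nonneg_right ?_ hM0
      rw [div_le_iff₀ hK0]
      linarith only [hKs2]
    have h5 : τ h = 2 / (K : ℝ) ^ 2 * ∑ a ∈ range K, ∑ b ∈ range K,
          (if a = b then 0 else ‖muh Γ m (((a : ℤ) - b) * h)‖) := rfl
    linarith only [h1, h2, h4, h5]
  · intro a₀ R hR hδ
    have hR0 : (0 : ℝ) < R := by exact_mod_cast hR
    set B : ℝ := 14 * (K : ℝ) ^ (1 / 2 : ℝ) * (R : ℝ) ^ (1 - η / 2) with hB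
    have hB0 : 0 ≤ B := by positivity
    have hab : ∀ a ∈ range K, ∀ b ∈ range K, ∑ h ∈ range R,
        (if a = b then 0 else ‖muh Γ m (((a : ℤ) - b) * (a₀ + h))‖) ≤ B := by
      intro a ha b hb
      by_cases hab : a = b
      · simp only [if_pos hab, Finset.sum_const_zero]
        exact hB0
      simp only [if_neg hab]
      have haK := Finset.mem_range.1 ha
      have hbK := Finset.mem_range.1 hb
      have hlen : ∀ l : ℕ, 1 ≤ l → l ≤ K → ∑ h ∈ range R, ‖muh Γ m (l * (a₀ + h))‖ ≤ B := by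
        intro l hl hlK
        have hlK' : (l : ℝ) ≤ K := by exact_mod_cast hlK
        have hδ1 : δ * l * R ≤ 1 := by
          have h0 : (0 : ℝ) ≤ l := Nat.cast_nonneg l
          have h1 := mul_le_mul_of_nonneg_right hδ h0
          have h2 := mul_le_mul_of_nonneg_right hlK' hs.le
          nlinarith only [h1, h2, hKs, hs, hK0]
        refine (mean_abs hη hη1 hF l R hl hR hδ1 a₀).trans ?_
        rw [hB]
        refine mul_le_mul_of_nonneg_right ?_ (by positivity)
        refine mul_le_mul_of_nonneg_left ?_ (by norm_num)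
        exact Real.rpow_le_rpow (Nat.cast_nonneg l) hlK' (by norm_num)
      rcases lt_or_gt_of_ne hab with hlt | hgt
      · have e : ∀ h : ℕ, ‖muh Γ m (((a : ℤ) - b) * (a₀ + h))‖ =
            ‖muh Γ m (((b - a : ℕ) : ℤ) * (a₀ + h))‖ := by
          intro h
          rw [← muh_neg]
          congr 2
          push_cast [hlt.le]
          ring
        simp only [e]
        exact hlen (b - a) (by omega) (by omega)
      · have e : ∀ h : ℕ, ‖muh Γ m (((a : ℤ) - b) * (a₀ + h))‖ =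
            ‖muh Γ m (((a - b : ℕ) : ℤ) * (a₀ + h))‖ := by
          intro h
          congr 2
          push_cast [hgt.le]
          ring
        simp only [e]
        exact hlen (a - b) (by omega) (by omega)
    have h1 : ∑ h ∈ range R, τ (a₀ + h) ≤ (2 / (K : ℝ) ^ 2) * ((K : ℝ) * (K * B)) := by
      simp only [hτ]
      rw [← Finset.mul_sum]
      refine mul_le_mul_of_nonneg_left ?_ hcoef
      rw [Finset.sum_comm]
      calc ∑ a ∈ range K, ∑ h ∈ range R, ∑ b ∈ range K,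
            (if a = b then 0 else ‖muh Γ m (((a : ℤ) - b) * (a₀ + h))‖)
          = ∑ a ∈ range K, ∑ b ∈ range K, ∑ h ∈ range R,
            (if a = b then 0 else ‖muh Γ m (((a : ℤ) - b) * (a₀ + h))‖) := by
            refine Finset.sum_congr rfl fun a _ => ?_
            rw [Finset.sum_comm]
        _ ≤ ∑ a ∈ range K, ∑ b ∈ range K, B :=
            Finset.sum_le_sum fun a ha => Finset.sum_le_sum fun b hb => hab a ha b hb
        _ = _ := by
            simp only [Finset.sum_const, Finset.card_range, nsmul_eq_mul]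
    refine h1.trans ?_
    have h2 : (2 / (K : ℝ) ^ 2) * ((K : ℝ) * (K * B)) = 28 * (K : ℝ) ^ (1 / 2 : ℝ) *
        (R : ℝ) ^ (1 - η / 2) := by
      rw [hB]
      field_simp
      ring
    rw [h2]
    refine mul_le_mul_of_nonneg_right ?_ (by positivity)
    refine mul_le_mul_of_nonneg_left ?_ (by norm_num)
    rw [Real.rpow_neg hs.le, ← Real.inv_rpow hs.le]
    refine Real.rpow_le_rpow hK0.le ?_ (by norm_num)
    rw [← one_div, le_div_iff₀ hs]
    linarith only [hKs, mul_pos hK0 hs]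

end Vale.P028.Y
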