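import Vale.Agent.P028.MathlibUsed
import Vale.Agent.P028.MDefs
import Vale.Agent.P028.MTensor
import Vale.Agent.P028.MSums

/-!
# Weighted tensor bound

For a nonnegative weight `κ ≤ 1` on the pairs of cofactors the sum of `f q f r κ(u,v)` over the
pairs with `v f q ≤ s`, `u f r ≤ s`, `u, v ≤ V` is at most
`C (1 + log V)^k s^(2(1-θ)) (Σ κ(u,v)/(u v))^μ (Σ f)^(2θ)`.
-/

namespace Vale.P028.Y

open Finset Vale.P028

open Classical in
/-- The tensor bound with a weight on the cofactor pairs. -/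
theorem ten {θ μ : ℝ} (hθ : 1 / 2 < θ) (hθ1 : θ < 1) (hμ : 0 < μ) (hμ1 : μ < 1 - θ) :
    ∃ C > 0, ∃ k ≥ 0, ∀ (N V : ℕ), 1 ≤ V → ∀ (f : ℕ → ℝ), (∀ q, 0 ≤ f q) → ∀ s : ℝ, 0 < s →
      ∀ κ : ℕ → ℕ → ℝ, (∀ u v, 0 ≤ κ u v) → (∀ u v, κ u v ≤ 1) →
      ∑ q ∈ Icc 1 N, ∑ r ∈ Icc 1 N, (if (cofac r q : ℝ) * f q ≤ s ∧ (cofac q r : ℝ) * f r ≤ s ∧
          cofac q r ≤ V ∧ cofac r q ≤ V then f q * f r * κ (cofac q r) (cofac r q) else 0) ≤
        C * (1 + Real.log V) ^ (k : ℝ) * s ^ (2 * (1 - θ)) *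
          (∑ u ∈ Icc 1 V, ∑ v ∈ Icc 1 V,
            if Nat.Coprime u v then κ u v / ((u : ℝ) * v) else 0) ^ μ *
          (∑ q ∈ Icc 1 N, f q) ^ (2 * θ) := by
  obtain ⟨A, hA, hSP⟩ := SPn_all hθ hθ1 hμ hμ1
  obtain ⟨C₁, hC₁, k, hk, hprod⟩ := prod_one_add_div_prime_le A hA
  refine ⟨C₁, hC₁, k, hk, ?_⟩
  intro N V hV1 f hf s hs κ hκ0 hκ1
  have hθ0 : 0 < θ := by linarith only [hθ]
  have h1θ : 0 < 1 - θ := by linarith only [hθ1]
  have h1μ : 0 < 1 - μ := by linarith only [hμ1, hθ0]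
  set P := (Icc 1 V).filter Nat.Prime with hP
  set z : ℕ → ℕ → ℝ := fun u v => if u ≤ V ∧ v ≤ V then κ u v / ((u : ℝ) * v) else 0 with hz
  have hz0 : ∀ u v, 0 ≤ z u v := by
    intro u v
    simp only [hz]
    split_ifs
    · exact div_nonneg (hκ0 u v) (by (clear * -; positivity))
    · exact le_rfl
  have hT := tensorStmt_primes hθ hμ (fun p => 1 + A / (p : ℝ)) (fun p _ => by
      have : 0 ≤ A / (p : ℝ) := by (clear * - hA; positivity)
      linarith only [this]) hSP P (fun p hp => (Finset.mem_filter.1 hp).2) N f f z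
    hf hf hz0
  have hK : 0 ≤ ∏ p ∈ P, (1 + A / (p : ℝ)) :=
    Finset.prod_nonneg fun q hq => by (clear * - hA; positivity)
  have hS0 : 0 ≤ ∑ q ∈ Icc 1 N, f q := Finset.sum_nonneg fun q _ => hf q
  have hSS : ((∑ q ∈ Icc 1 N, f q) * ∑ q ∈ Icc 1 N, f q) ^ θ = (∑ q ∈ Icc 1 N, f q) ^ (2 * θ) := by
    rw [Real.mul_rpow hS0 hS0, ← Real.rpow_add_of_nonneg hS0 (by linarith only [hθ]) (by linarith only [hθ])]
    congr 1
    ring
  rw [hSS] at hT
  have hS1 : 0 ≤ (∑ q ∈ Icc 1 N, f q) ^ (2 * θ) := Real.rpow_nonneg hS0 _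
  have hs2 : 0 ≤ s ^ (2 * (1 - θ)) := Real.rpow_nonneg hs.le _
  set T : ℝ := ∑ u ∈ Icc 1 V, ∑ v ∈ Icc 1 V,
            if Nat.Coprime u v then κ u v / ((u : ℝ) * v) else 0 with hTd
  have hT0 : 0 ≤ T := by
    rw [hTd]
    refine Finset.sum_nonneg fun u _ => Finset.sum_nonneg fun v _ => ?_
    split_ifs
    · exact div_nonneg (hκ0 u v) (by (clear * -; positivity))
    · exact le_rfl
  -- the sum of z
  have hzT : (∑ u ∈ Icc 1 N, ∑ v ∈ Icc 1 N, if Nat.Coprime u v then z u v else 0) ≤ T := by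
    have hnn : ∀ u v : ℕ, 0 ≤ (if Nat.Coprime u v then z u v else 0) := by
      intro u v
      split_ifs
      · exact hz0 u v
      · exact le_rfl
    have e1 : (∑ u ∈ Icc 1 N, ∑ v ∈ Icc 1 N, if Nat.Coprime u v then z u v else 0) =
        ∑ x ∈ (Icc 1 N ×ˢ Icc 1 N).filter (fun x => x.1 ≤ V ∧ x.2 ≤ V),
          (if Nat.Coprime x.1 x.2 then z x.1 x.2 else 0) := by
      rw [Finset.sum_filter, Finset.sum_product]
      refine Finset.sum_congr rfl fun u _ => Finset.sum_congr rfl fun v _ => ?_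
      by_cases h1 : u ≤ V ∧ v ≤ V
      · rw [if_pos h1]
      · rw [if_neg h1]
        simp only [hz, if_neg h1, ite_self]
    have e2 : T = ∑ x ∈ Icc 1 V ×ˢ Icc 1 V, (if Nat.Coprime x.1 x.2 then z x.1 x.2 else 0) := by
      rw [hTd, Finset.sum_product]
      refine Finset.sum_congr rfl fun u hu => Finset.sum_congr rfl fun v hv => ?_
      have hu1 := (Finset.mem_Icc.1 hu).2
      have hv1 := (Finset.mem_Icc.1 hv).2
      simp only [hz, if_pos (And.intro hu1 hv1)]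
    rw [e1, e2]
    refine Finset.sum_le_sum_of_subset_of_nonneg ?_ (fun x _ _ => hnn x.1 x.2)
    intro x hx
    simp only [Finset.mem_filter, Finset.mem_product, Finset.mem_Icc] at hx ⊢
    exact ⟨⟨hx.1.1.1, hx.2.1⟩, ⟨hx.1.2.1, hx.2.2⟩⟩
  have hzsum0 : 0 ≤ (∑ u ∈ Icc 1 N, ∑ v ∈ Icc 1 N, if Nat.Coprime u v then z u v else 0) := by
    refine Finset.sum_nonneg fun u _ => Finset.sum_nonneg fun v _ => ?_
    split_ifs
    · exact hz0 u v
    · exact le_rfl
  -- comparison of the terms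
  have hterm : ∑ q ∈ Icc 1 N, ∑ r ∈ Icc 1 N, (if (cofac r q : ℝ) * f q ≤ s ∧
          (cofac q r : ℝ) * f r ≤ s ∧
          cofac q r ≤ V ∧ cofac r q ≤ V then f q * f r * κ (cofac q r) (cofac r q) else 0) ≤
      s ^ (2 * (1 - θ)) * ∑ q ∈ Icc 1 N, ∑ r ∈ Icc 1 N,
      (if (∀ l : ℕ, l.Prime → l ∣ cofac q r * cofac r q → l ∈ P) then
        (f q * f r) ^ θ * ((cofac q r : ℝ) * (cofac r q : ℝ)) ^ (-(1 - θ - μ)) *
          (z (cofac q r) (cofac r q)) ^ μ else 0) := by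
    rw [Finset.mul_sum]
    refine Finset.sum_le_sum fun q hq => ?_
    rw [Finset.mul_sum]
    refine Finset.sum_le_sum fun r hr => ?_
    have hq0 : 0 < q := (Finset.mem_Icc.1 hq).1
    have hr0 : 0 < r := (Finset.mem_Icc.1 hr).1
    have hu0' : 0 < cofac q r := cofac_pos r hq0
    have hv0' : 0 < cofac r q := cofac_pos q hr0
    have hu0 : (0 : ℝ) < cofac q r := by exact_mod_cast hu0'
    have hv0 : (0 : ℝ) < cofac r q := by exact_mod_cast hv0'
    have huv : 0 < (cofac q r : ℝ) * (cofac r q : ℝ) := mul_pos hu0 hv0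
    have hff : 0 ≤ f q * f r := mul_nonneg (hf q) (hf r)
    by_cases hc : (cofac r q : ℝ) * f q ≤ s ∧ (cofac q r : ℝ) * f r ≤ s ∧
          cofac q r ≤ V ∧ cofac r q ≤ V
    · obtain ⟨h1, h2, h3, h4⟩ := hc
      have hall : ∀ l : ℕ, l.Prime → l ∣ cofac q r * cofac r q → l ∈ P := by
        intro l hl hd
        rw [hP, Finset.mem_filter, Finset.mem_Icc]
        refine ⟨⟨hl.one_le, ?_⟩, hl⟩
        rcases hl.dvd_mul.1 hd with h5 | h5
        · exact (Nat.le_of_dvd hu0' h5).trans h3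
        · exact (Nat.le_of_dvd hv0' h5).trans h4
      rw [if_pos ⟨h1, h2, h3, h4⟩, if_pos hall]
      have ez : z (cofac q r) (cofac r q) =
          κ (cofac q r) (cofac r q) / ((cofac q r : ℝ) * (cofac r q : ℝ)) := by
        simp only [hz, if_pos (And.intro h3 h4)]
      set x : ℝ := κ (cofac q r) (cofac r q) with hx
      have hx0 : 0 ≤ x := hκ0 _ _
      have hx1 : x ≤ 1 := hκ1 _ _
      have h7 : f q * f r = (f q * f r) ^ θ * (f q * f r) ^ (1 - θ) := by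
        rw [← Real.rpow_add_of_nonneg hff hθ0.le h1θ.le]
        rw [show θ + (1 - θ) = 1 by ring, Real.rpow_one]
      have h8 : (f q * f r) ^ (1 - θ) ≤
          s ^ (2 * (1 - θ)) * ((cofac q r : ℝ) * (cofac r q : ℝ)) ^ (-(1 - θ)) := by
        have h9 : f q * f r ≤ s ^ 2 / ((cofac q r : ℝ) * (cofac r q : ℝ)) := by
          rw [le_div_iff₀ huv]
          have hc := mul_le_mul h1 h2 (mul_nonneg hu0.le (hf r)) hs.le
          calc f q * f r * ((cofac q r : ℝ) * (cofac r q : ℝ))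
              = (cofac r q : ℝ) * f q * ((cofac q r : ℝ) * f r) := by ring
            _ ≤ s * s := hc
            _ = s ^ 2 := by ring
        refine (Real.rpow_le_rpow hff h9 h1θ.le).trans (le_of_eq ?_)
        rw [Real.div_rpow (by positivity) huv.le, Real.rpow_neg huv.le,
          div_eq_mul_inv, ← Real.rpow_natCast, ← Real.rpow_mul hs.le]
        norm_num
      have h10 : x ≤ x ^ μ := by
        rcases eq_or_lt_of_le hx0 with h | h
        · rw [← h, Real.zero_rpow hμ.ne']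
        · calc x = x ^ (1 : ℝ) := (Real.rpow_one x).symm
            _ ≤ x ^ μ := Real.rpow_le_rpow_of_exponent_ge h hx1 (by linarith only [hμ1, hθ0])
      rw [ez, Real.div_rpow hx0 huv.le]
      have h11 : ((cofac q r : ℝ) * (cofac r q : ℝ)) ^ (-(1 - θ)) =
          ((cofac q r : ℝ) * (cofac r q : ℝ)) ^ (-(1 - θ - μ)) /
            ((cofac q r : ℝ) * (cofac r q : ℝ)) ^ μ := by
        rw [← Real.rpow_sub huv]
        congr 1
        ring
      calc f q * f r * x = (f q * f r) ^ θ * (f q * f r) ^ (1 - θ) * x := by rw [← h7]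
        _ ≤ (f q * f r) ^ θ *
            (s ^ (2 * (1 - θ)) * ((cofac q r : ℝ) * (cofac r q : ℝ)) ^ (-(1 - θ))) * x ^ μ :=
            mul_le_mul (mul_le_mul_of_nonneg_left h8 (Real.rpow_nonneg hff _)) h10 hx0
              (mul_nonneg (Real.rpow_nonneg hff _) (mul_nonneg hs2 (Real.rpow_nonneg huv.le _)))
        _ = _ := by
            rw [h11]
            ring
    · rw [if_neg hc]
      refine mul_nonneg hs2 ?_
      split_ifs
      · exact mul_nonneg (mul_nonneg (Real.rpow_nonneg hff _) (Real.rpow_nonneg huv.le _))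
          (Real.rpow_nonneg (hz0 _ _) _)
      · exact le_rfl
  refine hterm.trans ?_
  calc s ^ (2 * (1 - θ)) * ∑ q ∈ Icc 1 N, ∑ r ∈ Icc 1 N,
      (if (∀ l : ℕ, l.Prime → l ∣ cofac q r * cofac r q → l ∈ P) then
        (f q * f r) ^ θ * ((cofac q r : ℝ) * (cofac r q : ℝ)) ^ (-(1 - θ - μ)) *
          (z (cofac q r) (cofac r q)) ^ μ else 0)
      ≤ s ^ (2 * (1 - θ)) * ((∏ p ∈ P, (1 + A / (p : ℝ))) * (∑ q ∈ Icc 1 N, f q) ^ (2 * θ) *
      (∑ u ∈ Icc 1 N, ∑ v ∈ Icc 1 N, if Nat.Coprime u v then z u v else 0) ^ μ) :=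
        mul_le_mul_of_nonneg_left hT hs2
    _ ≤ s ^ (2 * (1 - θ)) * ((C₁ * (1 + Real.log V) ^ k) * (∑ q ∈ Icc 1 N, f q) ^ (2 * θ) *
        T ^ μ) := by
        refine mul_le_mul_of_nonneg_left ?_ hs2
        have hL0 : 0 ≤ 1 + Real.log (V : ℝ) := by
          have := Real.log_natCast_nonneg V
          linarith only [this]
        refine mul_le_mul ?_ (Real.rpow_le_rpow hzsum0 hzT hμ.le) (Real.rpow_nonneg hzsum0 _)
          (mul_nonneg (mul_nonneg hC₁.le (Real.rpow_nonneg hL0 _)) hS1)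
        exact mul_le_mul_of_nonneg_right (hprod V hV1) hS1
    _ = _ := by ring

end Vale.P028.Y
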