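import Vale.Agent.P028.MathlibUsed
import Vale.Agent.P028.MNear
import Vale.Agent.P028.Y.Maj
import Vale.Agent.P028.Y.Ten

/-!
# Bounds on dyadic boxes
-/

namespace Vale.P028.Y

open Finset Vale.P028

open Classical in
/-- Sum of a function of `v - u` over a dyadic box with the weight `1/(u v)`. -/
theorem box_sum (R : ℕ) (hR : 1 ≤ R) (G : ℤ → ℝ) (hG : ∀ h, 0 ≤ G h) (B : ℝ)
    (h1 : ∀ v ∈ Icc 1 (2 * R), ∑ u ∈ Ico R (2 * R), (if u ≠ v then G ((v : ℤ) - u) else 0) ≤ B * R)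
    (h2 : ∀ u ∈ Icc 1 (2 * R), ∑ v ∈ Ico R (2 * R), (if u ≠ v then G ((v : ℤ) - u) else 0) ≤ B * R) :
    ∑ u ∈ Icc 1 (2 * R), ∑ v ∈ Icc 1 (2 * R), (if Nat.Coprime u v then
      (if (R ≤ max u v ∧ max u v < 2 * R) ∧ u ≠ v then G ((v : ℤ) - u) else 0) /
        ((u : ℝ) * v) else 0) ≤ 2 * B * (1 + Real.log ((2 * R : ℕ) : ℝ)) := by
  have hR0 : (0 : ℝ) < R := by exact_mod_cast hR
  have hterm : ∀ u ∈ Icc 1 (2 * R), ∀ v ∈ Icc 1 (2 * R), (if Nat.Coprime u v then
      (if (R ≤ max u v ∧ max u v < 2 * R) ∧ u ≠ v then G ((v : ℤ) - u) else 0) /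
        ((u : ℝ) * v) else 0) ≤
      (if u ∈ Ico R (2 * R) then (1 / (v : ℝ)) * (1 / (R : ℝ)) *
        (if u ≠ v then G ((v : ℤ) - u) else 0) else 0) +
      (if v ∈ Ico R (2 * R) then (1 / (u : ℝ)) * (1 / (R : ℝ)) *
        (if u ≠ v then G ((v : ℤ) - u) else 0) else 0) := by
    intro u hu v hv
    have hu1 : 1 ≤ u := (Finset.mem_Icc.1 hu).1
    have hv1 : 1 ≤ v := (Finset.mem_Icc.1 hv).1
    have hu0 : (0 : ℝ) < u := by exact_mod_cast hu1
    have hv0 : (0 : ℝ) < v := by exact_mod_cast hv1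
    have g0 : 0 ≤ (if u ≠ v then G ((v : ℤ) - u) else 0) := by
      split_ifs
      · exact hG _
      · exact le_rfl
    have a1 : 0 ≤ (if u ∈ Ico R (2 * R) then (1 / (v : ℝ)) * (1 / (R : ℝ)) *
        (if u ≠ v then G ((v : ℤ) - u) else 0) else 0) := by
      by_cases h : u ∈ Ico R (2 * R)
      · rw [if_pos h]
        positivity
      · rw [if_neg h]
    have a2 : 0 ≤ (if v ∈ Ico R (2 * R) then (1 / (u : ℝ)) * (1 / (R : ℝ)) *
        (if u ≠ v then G ((v : ℤ) - u) else 0) else 0) := by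
      by_cases h : v ∈ Ico R (2 * R)
      · rw [if_pos h]
        positivity
      · rw [if_neg h]
    by_cases hc : Nat.Coprime u v
    swap
    · rw [if_neg hc]
      exact add_nonneg a1 a2
    rw [if_pos hc]
    by_cases hb : (R ≤ max u v ∧ max u v < 2 * R) ∧ u ≠ v
    swap
    · rw [if_neg hb, zero_div]
      exact add_nonneg a1 a2
    rw [if_pos hb]
    obtain ⟨⟨hb1, hb2⟩, hb3⟩ := hb
    rw [max_lt_iff] at hb2
    have hGn : 0 ≤ G ((v : ℤ) - u) := hG _
    rcases le_max_iff.1 hb1 with h | h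
    · have hRu : (R : ℝ) ≤ u := by exact_mod_cast h
      have hm : u ∈ Ico R (2 * R) := Finset.mem_Ico.2 ⟨h, hb2.1⟩
      rw [if_pos hm, if_pos hb3]
      have : G ((v : ℤ) - u) / ((u : ℝ) * v) ≤ 1 / (v : ℝ) * (1 / R) * G ((v : ℤ) - u) := by
        rw [div_eq_mul_one_div, mul_comm]
        refine mul_le_mul_of_nonneg_right ?_ hGn
        rw [one_div_mul_one_div, div_le_div_iff₀ (by positivity) (by positivity)]
        nlinarith only [hRu, hv0]
      rw [if_pos hb3] at a2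
      linarith only [this, a2]
    · have hRv : (R : ℝ) ≤ v := by exact_mod_cast h
      have hm : v ∈ Ico R (2 * R) := Finset.mem_Ico.2 ⟨h, hb2.2⟩
      rw [if_pos hm, if_pos hb3]
      have : G ((v : ℤ) - u) / ((u : ℝ) * v) ≤ 1 / (u : ℝ) * (1 / R) * G ((v : ℤ) - u) := by
        rw [div_eq_mul_one_div, mul_comm]
        refine mul_le_mul_of_nonneg_right ?_ hGn
        rw [one_div_mul_one_div, div_le_div_iff₀ (by positivity) (by positivity)]
        nlinarith only [hRv, hu0]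
      rw [if_pos hb3] at a1
      linarith only [this, a1]
  have hsub : Ico R (2 * R) ⊆ Icc 1 (2 * R) := by
    intro x hx
    rw [Finset.mem_Ico] at hx
    rw [Finset.mem_Icc]
    omega
  have hfil : ∀ F : ℕ → ℝ, ∑ u ∈ Icc 1 (2 * R), (if u ∈ Ico R (2 * R) then F u else 0) =
      ∑ u ∈ Ico R (2 * R), F u := by
    intro F
    rw [← Finset.sum_filter, Finset.filter_mem_eq_inter, Finset.inter_eq_right.2 hsub]
  have hH := sum_inv_Icc_le_log (2 * R)
  have hB : 0 ≤ B * R := by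
    refine le_trans ?_ (h1 1 (Finset.mem_Icc.2 ⟨le_rfl, by omega⟩))
    refine Finset.sum_nonneg fun u _ => ?_
    split_ifs
    · exact hG _
    · exact le_rfl
  calc _ ≤ ∑ u ∈ Icc 1 (2 * R), ∑ v ∈ Icc 1 (2 * R),
      ((if u ∈ Ico R (2 * R) then (1 / (v : ℝ)) * (1 / (R : ℝ)) *
        (if u ≠ v then G ((v : ℤ) - u) else 0) else 0) +
      (if v ∈ Ico R (2 * R) then (1 / (u : ℝ)) * (1 / (R : ℝ)) *
        (if u ≠ v then G ((v : ℤ) - u) else 0) else 0)) :=
        Finset.sum_le_sum fun u hu => Finset.sum_le_sum fun v hv => hterm u hu v hv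
    _ = (∑ v ∈ Icc 1 (2 * R), (1 / (v : ℝ)) * (1 / (R : ℝ)) *
          ∑ u ∈ Ico R (2 * R), (if u ≠ v then G ((v : ℤ) - u) else 0)) +
        ∑ u ∈ Icc 1 (2 * R), (1 / (u : ℝ)) * (1 / (R : ℝ)) *
          ∑ v ∈ Ico R (2 * R), (if u ≠ v then G ((v : ℤ) - u) else 0) := by
        simp only [Finset.sum_add_distrib]
        congr 1
        · rw [Finset.sum_comm]
          refine Finset.sum_congr rfl fun v _ => ?_
          rw [hfil (fun u => (1 / (v : ℝ)) * (1 / (R : ℝ)) *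
            (if u ≠ v then G ((v : ℤ) - u) else 0)), Finset.mul_sum]
        · refine Finset.sum_congr rfl fun u _ => ?_
          rw [hfil (fun v => (1 / (u : ℝ)) * (1 / (R : ℝ)) *
            (if u ≠ v then G ((v : ℤ) - u) else 0)), Finset.mul_sum]
    _ ≤ (∑ v ∈ Icc 1 (2 * R), (1 / (v : ℝ)) * (1 / (R : ℝ)) * (B * R)) +
        ∑ u ∈ Icc 1 (2 * R), (1 / (u : ℝ)) * (1 / (R : ℝ)) * (B * R) := by
        refine add_le_add ?_ ?_
        · exact Finset.sum_le_sum fun v hv => mul_le_mul_of_nonneg_left (h1 v hv) (by positivity)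
        · exact Finset.sum_le_sum fun u hu => mul_le_mul_of_nonneg_left (h2 u hu) (by positivity)
    _ = 2 * B * ∑ v ∈ Icc 1 (2 * R), (1 / (v : ℝ)) := by
        rw [Finset.mul_sum, ← Finset.sum_add_distrib]
        refine Finset.sum_congr rfl fun v _ => ?_
        field_simp
        ring
    _ ≤ 2 * B * (1 + Real.log ((2 * R : ℕ) : ℝ)) := by
        refine mul_le_mul_of_nonneg_left hH ?_
        have : 0 ≤ B := by
          by_contra hcon
          rw [not_le] at hcon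
          nlinarith only [hcon, hR0, hB]
        linarith only [this]

/-- Sums over `Ico R (2R)` as sums over progressions: first kind. -/
theorem shift_sum1 (R : ℕ) (G : ℤ → ℝ) (hG : ∀ h, 0 ≤ G h) (v : ℕ) (X : ℝ)
    (hX : ∀ a : ℤ, ∑ h ∈ range R, G (a + h) ≤ X) :
    ∑ u ∈ Ico R (2 * R), (if u ≠ v then G ((v : ℤ) - u) else 0) ≤ X := by
  have e : Ico R (2 * R) = Ico R (R + R) := by rw [two_mul]
  calc ∑ u ∈ Ico R (2 * R), (if u ≠ v then G ((v : ℤ) - u) else 0)
      ≤ ∑ u ∈ Ico R (2 * R), G ((v : ℤ) - u) := by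
        refine Finset.sum_le_sum fun u _ => ?_
        split_ifs
        · exact le_rfl
        · exact hG _
    _ = ∑ h ∈ range R, G (((v : ℤ) - 2 * R + 1) + h) := by
        rw [e, Finset.sum_Ico_eq_sum_range, Nat.add_sub_cancel]
        rw [← Finset.sum_range_reflect]
        refine Finset.sum_congr rfl fun h hh => ?_
        have := Finset.mem_range.1 hh
        congr 1
        push_cast [show h ≤ R - 1 by omega, show 1 ≤ R by omega]
        omega
    _ ≤ X := hX _

/-- Sums over `Ico R (2R)` as sums over progressions: second kind. -/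
theorem shift_sum2 (R : ℕ) (G : ℤ → ℝ) (hG : ∀ h, 0 ≤ G h) (u : ℕ) (X : ℝ)
    (hX : ∀ a : ℤ, ∑ h ∈ range R, G (a + h) ≤ X) :
    ∑ v ∈ Ico R (2 * R), (if u ≠ v then G ((v : ℤ) - u) else 0) ≤ X := by
  have e : Ico R (2 * R) = Ico R (R + R) := by rw [two_mul]
  calc ∑ v ∈ Ico R (2 * R), (if u ≠ v then G ((v : ℤ) - u) else 0)
      ≤ ∑ v ∈ Ico R (2 * R), G ((v : ℤ) - u) := by
        refine Finset.sum_le_sum fun u _ => ?_
        split_ifs
        · exact le_rfl
        · exact hG _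
    _ = ∑ h ∈ range R, G (((R : ℤ) - u) + h) := by
        rw [e, Finset.sum_Ico_eq_sum_range, Nat.add_sub_cancel]
        refine Finset.sum_congr rfl fun h _ => ?_
        congr 1
        push_cast
        ring
    _ ≤ X := hX _

end Vale.P028.Y
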