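import Vale.Agent.P028.MathlibUsed
import Vale.Agent.P028.Y.Box

/-!
# The averages over dyadic boxes
-/

namespace Vale.P028.Y

open Finset Vale.P028

theorem two_le_two {x y : ℝ} (h : x ≤ y) : (2 : ℝ) ^ x ≤ (2 : ℝ) ^ y :=
  Real.rpow_le_rpow_of_exponent_le (by norm_num) h

theorem two_mul_two (x y : ℝ) : (2 : ℝ) ^ x * (2 : ℝ) ^ y = (2 : ℝ) ^ (x + y) :=
  (Real.rpow_add (by norm_num) x y).symm

theorem two_pow_pow (x y : ℝ) : ((2 : ℝ) ^ x) ^ y = (2 : ℝ) ^ (x * y) :=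
  (Real.rpow_mul (by norm_num) x y).symm

/-- Near boxes, small cofactors: pointwise. -/
theorem near_small {η δ : ℝ} (hη : 0 < η) (hη1 : η ≤ 1 / 2) {Γ : Finset ℝ} {m : ℝ → ℝ}
    (hF : FW η δ Γ m) (i j : ℕ) (hij : (j : ℝ) ≤ i * η / 2)
    (hδ : δ * 2 ^ (j : ℝ) ≤ 2 ^ (-(i : ℝ))) (l : ℕ) (hl : 1 ≤ l)
    (hl2 : (l : ℝ) ≤ 2 * 2 ^ (j : ℝ)) :
    kap Γ m (2 ^ (-(i : ℝ))) l ≤ 96 * 2 ^ (-(η ^ 2 / 16 * i + η ^ 3 / 64 * j)) := by
  set s : ℝ := 2 ^ (-(i : ℝ)) with hs
  have hs0 : 0 < s := by positivity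
  have hl1 : (1 : ℝ) ≤ l := by exact_mod_cast hl
  have hl0 : (0 : ℝ) < l := by linarith only [hl1]
  have hi0 : (0 : ℝ) ≤ i := Nat.cast_nonneg i
  have hj0 : (0 : ℝ) ≤ j := Nat.cast_nonneg j
  have hδl : δ * l ≤ 2 * s := by
    rcases le_or_gt δ 0 with h | h
    · have : δ * l ≤ 0 := mul_nonpos_of_nonpos_of_nonneg h hl0.le
      linarith only [this, hs0]
    · have := mul_le_mul_of_nonneg_left hl2 h.le
      linarith only [this, hδ]
  have h1 := kap_small hF l hl s hs0 hδl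
  have h2 : (2 * s / l) ^ η ≤ 2 * 2 ^ (-(i : ℝ) * η) := by
    calc (2 * s / l) ^ η ≤ (2 * s) ^ η := by
          refine Real.rpow_le_rpow (by positivity) ?_ hη.le
          exact div_le_self (by positivity) hl1
      _ = 2 ^ η * s ^ η := Real.mul_rpow (by norm_num) hs0.le
      _ = 2 ^ η * 2 ^ (-(i : ℝ) * η) := by rw [hs, two_pow_pow]
      _ ≤ 2 * 2 ^ (-(i : ℝ) * η) := by
          refine mul_le_mul_of_nonneg_right ?_ (by positivity)
          calc (2 : ℝ) ^ η ≤ 2 ^ (1 : ℝ) := two_le_two (by linarith only [hη1])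
            _ = 2 := Real.rpow_one _
  calc kap Γ m s l ≤ 24 * l * (2 * s / l) ^ η := h1
    _ ≤ 24 * (2 * 2 ^ (j : ℝ)) * (2 * 2 ^ (-(i : ℝ) * η)) := by
        refine mul_le_mul ?_ h2 (by positivity) (by positivity)
        linarith only [hl2]
    _ = 96 * (2 ^ (j : ℝ) * 2 ^ (-(i : ℝ) * η)) := by ring
    _ = 96 * 2 ^ ((j : ℝ) + -(i : ℝ) * η) := by rw [two_mul_two]
    _ ≤ _ := by
        refine mul_le_mul_of_nonneg_left (two_le_two ?_) (by norm_num)
        have e1 : η ^ 3 / 64 * j ≤ 1 / 64 * (i * η / 2) := by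
          have : η ^ 3 ≤ 1 := pow_le_one₀ hη.le (by linarith only [hη1])
          have h3 : η ^ 3 / 64 * j ≤ 1 / 64 * j := by
            refine mul_le_mul_of_nonneg_right ?_ hj0
            linarith only [this]
          linarith only [h3, hij]
        have e2 : η ^ 2 / 16 * i ≤ 1 / 16 * (i * η) := by
          have : η ^ 2 ≤ η := by nlinarith only [hη, hη1]
          have := mul_le_mul_of_nonneg_right this hi0
          linarith only [this]
        have e3 : 0 ≤ (i : ℝ) * η := by positivity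
        linarith only [e1, e2, e3, hij]

/-- Near boxes, large cofactors: on average. -/
theorem near_large {η δ : ℝ} (hη : 0 < η) (hη1 : η ≤ 1 / 2) {Γ : Finset ℝ} {m : ℝ → ℝ}
    (hF : FW η δ Γ m) (i j : ℕ) (hij : (i : ℝ) * η / 2 < j) (hji : (j : ℝ) * η ≤ 4 * i)
    (hδ : δ * 2 ^ (j : ℝ) ≤ 2 ^ (-(i : ℝ))) (a : ℤ) :
    ∑ h ∈ range (2 ^ j), kap Γ m (2 ^ (-(i : ℝ))) (a + h) ≤
      96 * 2 ^ (-(η ^ 2 / 16 * i + η ^ 3 / 64 * j)) * 2 ^ (j : ℝ) := by
  set s : ℝ := 2 ^ (-(i : ℝ)) with hs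
  have hs0 : 0 < s := by positivity
  have hi0 : (0 : ℝ) ≤ i := Nat.cast_nonneg i
  have hj0 : (0 : ℝ) ≤ j := Nat.cast_nonneg j
  set t : ℝ := max s (2 ^ (-(j * η / 4))) with ht
  have ht0 : 0 < t := lt_of_lt_of_le hs0 (le_max_left _ _)
  have hst : s ≤ t := le_max_left _ _
  have hjt : (2 : ℝ) ^ (-(j * η / 4)) ≤ t := le_max_right _ _
  have hR : (((2 ^ j : ℕ) : ℝ)) = 2 ^ (j : ℝ) := by
    push_cast
    rw [Real.rpow_natCast]
  obtain ⟨τ, hτ0, hτ1, hτ2⟩ := tau_exists hη hη1 hF t ht0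
  have h1 := hτ2 a (2 ^ j) Nat.one_le_two_pow (by
    rw [hR]
    exact hδ.trans hst)
  rw [hR] at h1
  have h2 : t ^ (-(1 / 2) : ℝ) ≤ 2 ^ (j * η / 8) := by
    calc t ^ (-(1 / 2) : ℝ) ≤ ((2 : ℝ) ^ (-(j * η / 4))) ^ (-(1 / 2) : ℝ) :=
          Real.rpow_le_rpow_of_nonpos (by positivity) hjt (by norm_num)
      _ = 2 ^ (j * η / 8) := by
          rw [two_pow_pow]
          congr 1
          ring
  have h3 : t ≤ 2 ^ (-(η ^ 2 / 8 * i)) := by
    rw [ht]
    refine max_le ?_ ?_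
    · rw [hs]
      refine two_le_two ?_
      have : η ^ 2 / 8 ≤ 1 := by nlinarith only [hη, hη1]
      have := mul_le_mul_of_nonneg_right this hi0
      linarith only [this]
    · refine two_le_two ?_
      have := mul_lt_mul_of_pos_right hij hη
      nlinarith only [this]
  have h4 : 28 * t ^ (-(1 / 2) : ℝ) * ((2 : ℝ) ^ (j : ℝ)) ^ (1 - η / 2) ≤ 28 * t * 2 ^ (j : ℝ) := by
    calc 28 * t ^ (-(1 / 2) : ℝ) * ((2 : ℝ) ^ (j : ℝ)) ^ (1 - η / 2)
        ≤ 28 * 2 ^ (j * η / 8) * ((2 : ℝ) ^ (j : ℝ)) ^ (1 - η / 2) := by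
          refine mul_le_mul_of_nonneg_right ?_ (by positivity)
          linarith only [h2]
      _ = 28 * (2 ^ (j * η / 8) * 2 ^ ((j : ℝ) * (1 - η / 2))) := by
          rw [two_pow_pow]
          ring
      _ = 28 * 2 ^ (j * η / 8 + (j : ℝ) * (1 - η / 2)) := by rw [two_mul_two]
      _ ≤ 28 * 2 ^ (-(j * η / 4) + (j : ℝ)) := by
          refine mul_le_mul_of_nonneg_left (two_le_two ?_) (by norm_num)
          have : 0 ≤ (j : ℝ) * η := by positivity
          linarith only [this]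
      _ = 28 * 2 ^ (-(j * η / 4)) * 2 ^ (j : ℝ) := by
          rw [← two_mul_two]
          ring
      _ ≤ _ := by
          refine mul_le_mul_of_nonneg_right ?_ (by positivity)
          linarith only [hjt]
  calc ∑ h ∈ range (2 ^ j), kap Γ m s (a + h)
      ≤ ∑ h ∈ range (2 ^ j), (64 * t * 1 + τ (a + h)) := by
        refine Finset.sum_le_sum fun h _ => ?_
        refine (kap_mono hF.1 hst _).trans ((hτ1 _).trans ?_)
        have := mul_le_mul_of_nonneg_left hF.2.2.1 (show 0 ≤ 64 * t by positivity)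
        linarith only [this]
    _ = 64 * t * 2 ^ (j : ℝ) + ∑ h ∈ range (2 ^ j), τ (a + h) := by
        rw [Finset.sum_add_distrib, Finset.sum_const, Finset.card_range, nsmul_eq_mul, hR]
        ring
    _ ≤ 64 * t * 2 ^ (j : ℝ) + 28 * t * 2 ^ (j : ℝ) := by linarith only [h1, h4]
    _ = 92 * t * 2 ^ (j : ℝ) := by ring
    _ ≤ 96 * 2 ^ (-(η ^ 2 / 16 * i + η ^ 3 / 64 * j)) * 2 ^ (j : ℝ) := by
        refine mul_le_mul_of_nonneg_right ?_ (by positivity)
        have h5 : (2 : ℝ) ^ (-(η ^ 2 / 8 * i)) ≤ 2 ^ (-(η ^ 2 / 16 * i + η ^ 3 / 64 * j)) := by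
          refine two_le_two ?_
          have h6 : η ^ 3 / 64 * j = η ^ 2 / 64 * (j * η) := by ring
          have h7 : η ^ 2 / 64 * (j * η) ≤ η ^ 2 / 64 * (4 * i) :=
            mul_le_mul_of_nonneg_left hji (by positivity)
          rw [h6]
          linarith only [h7]
        have h8 : 0 < (2 : ℝ) ^ (-(η ^ 2 / 16 * i + η ^ 3 / 64 * j)) := by positivity
        linarith only [h3, h5, h8]

open Classical in
/-- The function `G` on a box. -/
theorem box_B {η δ : ℝ} (hη : 0 < η) (hη1 : η ≤ 1 / 2) {Γ : Finset ℝ} {m : ℝ → ℝ}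
    (hF : FW η δ Γ m) (i j : ℕ) (hδ : δ * 2 ^ (j : ℝ) ≤ 2 ^ (-(i : ℝ))) :
    ∃ G : ℤ → ℝ, (∀ h, 0 ≤ G h) ∧ (∀ h, G h ≤ 1) ∧
      (∀ h, kap Γ m (2 ^ (-(i : ℝ))) h ≤ 64 * 2 ^ (-(i : ℝ)) * (∑ g ∈ Γ, m g) + G h) ∧
      (∀ v : ℕ, v ∈ Icc 1 (2 * 2 ^ j) → ∑ u ∈ Ico (2 ^ j) (2 * 2 ^ j),
        (if u ≠ v then G ((v : ℤ) - u) else 0) ≤
          96 * 2 ^ (-(η ^ 2 / 16 * i + η ^ 3 / 64 * j)) * ((2 ^ j : ℕ) : ℝ)) ∧
      (∀ u : ℕ, u ∈ Icc 1 (2 * 2 ^ j) → ∑ v ∈ Ico (2 ^ j) (2 * 2 ^ j),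
        (if u ≠ v then G ((v : ℤ) - u) else 0) ≤
          96 * 2 ^ (-(η ^ 2 / 16 * i + η ^ 3 / 64 * j)) * ((2 ^ j : ℕ) : ℝ)) := by
  set s : ℝ := 2 ^ (-(i : ℝ)) with hs
  have hs0 : 0 < s := by positivity
  have hi0 : (0 : ℝ) ≤ i := Nat.cast_nonneg i
  have hj0 : (0 : ℝ) ≤ j := Nat.cast_nonneg j
  have hR : (((2 ^ j : ℕ) : ℝ)) = 2 ^ (j : ℝ) := by
    push_cast
    rw [Real.rpow_natCast]
  have hM0 : 0 ≤ ∑ g ∈ Γ, m g := Finset.sum_nonneg hF.1
  set B : ℝ := 96 * 2 ^ (-(η ^ 2 / 16 * i + η ^ 3 / 64 * j)) with hB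
  rw [hR]
  by_cases hfar : (j : ℝ) * η ≤ 4 * i
  · refine ⟨kap Γ m s, kap_nonneg hF.1 s, fun h => (kap_le_mass hF.1 s h).trans hF.2.2.1, ?_, ?_⟩
    · intro h
      have : 0 ≤ 64 * s * ∑ g ∈ Γ, m g := by positivity
      linarith only [this]
    rcases le_or_gt (j : ℝ) (i * η / 2) with hsm | hsm
    · have hpt : ∀ u v : ℕ, u ≠ v → u ≤ 2 * 2 ^ j → v ≤ 2 * 2 ^ j →
          kap Γ m s ((v : ℤ) - u) ≤ B := by
        intro u v huv hu hv
        rcases lt_or_gt_of_ne huv with h | h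
        · have e : (v : ℤ) - u = ((v - u : ℕ) : ℤ) := by
            push_cast [h.le]
            ring
          rw [e]
          refine near_small hη hη1 hF i j hsm hδ (v - u) (by omega) ?_
          have : ((v - u : ℕ) : ℝ) ≤ ((2 * 2 ^ j : ℕ) : ℝ) := by exact_mod_cast (by omega)
          refine this.trans (le_of_eq ?_)
          rw [Nat.cast_mul, hR]
          norm_num
        · have e : (v : ℤ) - u = -((u - v : ℕ) : ℤ) := by
            push_cast [h.le]
            ring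
          rw [e, kap_neg]
          refine near_small hη hη1 hF i j hsm hδ (u - v) (by omega) ?_
          have : ((u - v : ℕ) : ℝ) ≤ ((2 * 2 ^ j : ℕ) : ℝ) := by exact_mod_cast (by omega)
          refine this.trans (le_of_eq ?_)
          rw [Nat.cast_mul, hR]
          norm_num
      have hcard : ∑ u ∈ Ico (2 ^ j) (2 * 2 ^ j), B = B * 2 ^ (j : ℝ) := by
        rw [Finset.sum_const, Nat.card_Ico, nsmul_eq_mul, mul_comm, ← hR]
        congr 2
        omega
      have hB0 : 0 ≤ B := by positivity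
      constructor
      · intro v hv
        rw [← hcard]
        refine Finset.sum_le_sum fun u hu => ?_
        split_ifs with h
        · exact hpt u v h (Finset.mem_Ico.1 hu).2.le (Finset.mem_Icc.1 hv).2
        · exact hB0
      · intro u hu
        rw [← hcard]
        refine Finset.sum_le_sum fun v hv => ?_
        split_ifs with h
        · exact hpt u v h (Finset.mem_Icc.1 hu).2 (Finset.mem_Ico.1 hv).2.le
        · exact hB0
    · constructor
      · intro v _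
        exact shift_sum1 (2 ^ j) (kap Γ m s) (kap_nonneg hF.1 s) v _
          (near_large hη hη1 hF i j hsm hfar hδ)
      · intro u _
        exact shift_sum2 (2 ^ j) (kap Γ m s) (kap_nonneg hF.1 s) u _
          (near_large hη hη1 hF i j hsm hfar hδ)
  · rw [not_le] at hfar
    obtain ⟨τ, hτ0, hτ1, hτ2⟩ := tau_exists hη hη1 hF s hs0
    have hX : ∀ a : ℤ, ∑ h ∈ range (2 ^ j), min (τ (a + h)) 1 ≤ B * 2 ^ (j : ℝ) := by
      intro a
      have h1 := hτ2 a (2 ^ j) Nat.one_le_two_pow (by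
        rw [hR]
        exact hδ)
      rw [hR] at h1
      calc ∑ h ∈ range (2 ^ j), min (τ (a + h)) 1 ≤ ∑ h ∈ range (2 ^ j), τ (a + h) :=
            Finset.sum_le_sum fun h _ => min_le_left _ _
        _ ≤ _ := h1
        _ = 28 * (2 ^ ((i : ℝ) / 2) * 2 ^ ((j : ℝ) * (1 - η / 2))) := by
            rw [hs, two_pow_pow, two_pow_pow, show -(i : ℝ) * -(1 / 2) = (i : ℝ) / 2 by ring]
            ring
        _ = 28 * 2 ^ ((i : ℝ) / 2 + (j : ℝ) * (1 - η / 2)) := by rw [two_mul_two]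
        _ ≤ 28 * 2 ^ (-(η ^ 2 / 16 * i + η ^ 3 / 64 * j) + (j : ℝ)) := by
            refine mul_le_mul_of_nonneg_left (two_le_two ?_) (by norm_num)
            have e1 : η ^ 2 / 16 * i ≤ 1 / 16 * i := by
              refine mul_le_mul_of_nonneg_right ?_ hi0
              nlinarith only [hη, hη1]
            have e2 : η ^ 3 / 64 * j ≤ 1 / 64 * (j * η) := by
              have h2 : η ^ 2 ≤ 1 := by nlinarith only [hη, hη1]
              have h3 : 0 ≤ (j : ℝ) * η := by positivity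
              nlinarith only [mul_le_mul_of_nonneg_right h2 h3]
            linarith only [e1, e2, hfar, hi0]
        _ = 28 * 2 ^ (-(η ^ 2 / 16 * i + η ^ 3 / 64 * j)) * 2 ^ (j : ℝ) := by
            rw [← two_mul_two]
            ring
        _ ≤ _ := by
            rw [hB]
            refine mul_le_mul_of_nonneg_right ?_ (by positivity)
            have : 0 < (2 : ℝ) ^ (-(η ^ 2 / 16 * i + η ^ 3 / 64 * j)) := by positivity
            linarith only [this]
    have hG0 : ∀ h, 0 ≤ min (τ h) 1 := fun h => le_min (hτ0 h) zero_le_one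
    refine ⟨fun h => min (τ h) 1, hG0, fun h => min_le_right _ _, ?_, ?_, ?_⟩
    · intro h
      have h1 := hτ1 h
      have h2 := (kap_le_mass hF.1 s h).trans hF.2.2.1
      have h3 : 0 ≤ 64 * s * ∑ g ∈ Γ, m g := by positivity
      dsimp only
      rcases le_total (τ h) 1 with h4 | h4
      · rw [min_eq_left h4]
        exact h1
      · rw [min_eq_right h4]
        linarith only [h2, h3]
    · intro v _
      exact shift_sum1 (2 ^ j) (fun h => min (τ h) 1) hG0 v _ hX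
    · intro u _
      exact shift_sum2 (2 ^ j) (fun h => min (τ h) 1) hG0 u _ hX

end Vale.P028.Y
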