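import Vale.Agent.P028.MathlibUsed
import Vale.Agent.P028.Y.BoxB

/-!
# The sum over one box
-/

namespace Vale.P028.Y

open Finset Vale.P028

open Classical in
/-- The weight on a box. -/
noncomputable def kb (G : ℤ → ℝ) (j u v : ℕ) : ℝ :=
  if (2 ^ j ≤ max u v ∧ max u v < 2 * 2 ^ j) ∧ u ≠ v then G ((v : ℤ) - u) else 0

open Classical in
/-- The sum over one box. -/
noncomputable def TB (G : ℤ → ℝ) (i j N : ℕ) (f : ℕ → ℝ) : ℝ :=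
  ∑ q ∈ Icc 1 N, ∑ r ∈ Icc 1 N, (if (cofac r q : ℝ) * f q ≤ 2 ^ (-(i : ℝ)) ∧
    (cofac q r : ℝ) * f r ≤ 2 ^ (-(i : ℝ)) ∧ cofac q r ≤ 2 * 2 ^ j ∧ cofac r q ≤ 2 * 2 ^ j then
      f q * f r * kb G j (cofac q r) (cofac r q) else 0)

open Classical in
theorem box_T {η : ℝ} (hη : 0 < η) (hη1 : η ≤ 1 / 2) :
    ∃ (C : ℝ) (k : ℕ), 0 < C ∧ ∀ (δ : ℝ) (Γ : Finset ℝ) (m : ℝ → ℝ), FW η δ Γ m →
      ∀ i j : ℕ, δ * 2 ^ (j : ℝ) ≤ 2 ^ (-(i : ℝ)) →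
      ∃ G : ℤ → ℝ, (∀ h, 0 ≤ G h) ∧ (∀ h, G h ≤ 1) ∧
      (∀ h, kap Γ m (2 ^ (-(i : ℝ))) h ≤ 64 * 2 ^ (-(i : ℝ)) * (∑ g ∈ Γ, m g) + G h) ∧
      ∀ (N : ℕ) (f : ℕ → ℝ), (∀ q, 0 ≤ f q) →
        2 ^ ((i : ℝ) + 1) * TB G i j N f ≤
          C * ((j : ℝ) + 2) ^ k * 2 ^ (-(η ^ 2 / 256 * i + η ^ 3 / 512 * j)) *
            (∑ q ∈ Icc 1 N, f q) ^ (2 * (1 / 2 + η ^ 2 / 512)) := by
  have hη2 : η ^ 2 ≤ 1 := by nlinarith only [hη, hη1]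
  have hη20 : 0 < η ^ 2 := by positivity
  obtain ⟨C, hC, k, hk, hten⟩ := ten (θ := 1 / 2 + η ^ 2 / 512) (μ := 1 / 8)
    (by linarith only [hη20]) (by linarith only [hη2]) (by norm_num) (by linarith only [hη2])
  refine ⟨4 * C, ⌈k⌉₊ + 1, by positivity, ?_⟩
  intro δ Γ m hF i j hδ
  obtain ⟨G, hG0, hG1, hGk, hGa, hGb⟩ := box_B hη hη1 hF i j hδ
  refine ⟨G, hG0, hG1, hGk, ?_⟩
  intro N f hf
  have hi0 : (0 : ℝ) ≤ i := Nat.cast_nonneg i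
  have hj0 : (0 : ℝ) ≤ j := Nat.cast_nonneg j
  set s : ℝ := 2 ^ (-(i : ℝ)) with hs
  have hs0 : 0 < s := by positivity
  set B : ℝ := 96 * 2 ^ (-(η ^ 2 / 16 * i + η ^ 3 / 64 * j)) with hB
  have hB0 : 0 < B := by positivity
  have hV1 : 1 ≤ 2 * 2 ^ j := by
    have : 1 ≤ 2 ^ j := Nat.one_le_two_pow
    omega
  have hkb0 : ∀ u v, 0 ≤ kb G j u v := by
    intro u v
    unfold kb
    split_ifs
    · exact hG0 _
    · exact le_rfl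
  have hkb1 : ∀ u v, kb G j u v ≤ 1 := by
    intro u v
    unfold kb
    split_ifs
    · exact hG1 _
    · exact zero_le_one
  have h1 := hten N (2 * 2 ^ j) hV1 f hf s hs0 (kb G j) hkb0 hkb1
  have hbox := box_sum (2 ^ j) Nat.one_le_two_pow G hG0 B hGa hGb
  have hL : 1 + Real.log ((2 * 2 ^ j : ℕ) : ℝ) ≤ (j : ℝ) + 2 := by
    have e : ((2 * 2 ^ j : ℕ) : ℝ) = 2 ^ (j + 1) := by
      push_cast
      ring
    rw [e, Real.log_pow]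
    have h2 : Real.log 2 ≤ 1 := by
      have := Real.log_two_lt_d9
      linarith only [this]
    push_cast
    nlinarith only [h2, hj0, mul_le_mul_of_nonneg_left h2 (show 0 ≤ (j : ℝ) + 1 by linarith only [hj0])]
  have hL0 : 0 ≤ 1 + Real.log ((2 * 2 ^ j : ℕ) : ℝ) := by
    have := Real.log_natCast_nonneg (2 * 2 ^ j)
    linarith only [this]
  have hj2 : 1 ≤ (j : ℝ) + 2 := by linarith only [hj0]
  have hj20 : 0 < (j : ℝ) + 2 := by linarith only [hj0]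
  set Z : ℝ := ∑ u ∈ Icc 1 (2 * 2 ^ j), ∑ v ∈ Icc 1 (2 * 2 ^ j),
            (if Nat.Coprime u v then kb G j u v / ((u : ℝ) * v) else 0) with hZ
  have hZ0 : 0 ≤ Z := by
    refine Finset.sum_nonneg fun u _ => Finset.sum_nonneg fun v _ => ?_
    split_ifs
    · exact div_nonneg (hkb0 u v) (by positivity)
    · exact le_rfl
  have hZle : Z ≤ 2 * B * ((j : ℝ) + 2) := by
    refine (le_of_eq ?_).trans (hbox.trans ?_)
    · rw [hZ]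
      rfl
    · exact mul_le_mul_of_nonneg_left hL (by positivity)
  have hZμ : Z ^ (1 / 8 : ℝ) ≤ 2 * ((j : ℝ) + 2) * 2 ^ (-(η ^ 2 / 128 * i + η ^ 3 / 512 * j)) := by
    refine (Real.rpow_le_rpow hZ0 hZle (by norm_num)).trans ?_
    rw [hB, Real.mul_rpow (by positivity) hj20.le]
    have e1 : (2 * (96 * (2 : ℝ) ^ (-(η ^ 2 / 16 * i + η ^ 3 / 64 * j)))) ^ (1 / 8 : ℝ) =
        (192 : ℝ) ^ (1 / 8 : ℝ) * 2 ^ (-(η ^ 2 / 128 * i + η ^ 3 / 512 * j)) := by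
      rw [← mul_assoc, Real.mul_rpow (by norm_num) (by positivity), two_pow_pow]
      congr 1
      · norm_num
      · congr 1
        ring
    rw [e1]
    have e2 : (192 : ℝ) ^ (1 / 8 : ℝ) ≤ 2 := by
      have : (2 : ℝ) = ((2 : ℝ) ^ (8 : ℝ)) ^ (1 / 8 : ℝ) := by
        rw [← Real.rpow_mul (by norm_num)]
        norm_num
      rw [this]
      refine Real.rpow_le_rpow (by norm_num) ?_ (by norm_num)
      norm_num
    have e3 : ((j : ℝ) + 2) ^ (1 / 8 : ℝ) ≤ (j : ℝ) + 2 := by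
      calc ((j : ℝ) + 2) ^ (1 / 8 : ℝ) ≤ ((j : ℝ) + 2) ^ (1 : ℝ) :=
            Real.rpow_le_rpow_of_exponent_le hj2 (by norm_num)
        _ = _ := Real.rpow_one _
    have e4 : 0 < (2 : ℝ) ^ (-(η ^ 2 / 128 * i + η ^ 3 / 512 * j)) := by positivity
    calc (192 : ℝ) ^ (1 / 8 : ℝ) * 2 ^ (-(η ^ 2 / 128 * i + η ^ 3 / 512 * j)) *
          ((j : ℝ) + 2) ^ (1 / 8 : ℝ)
        ≤ 2 * 2 ^ (-(η ^ 2 / 128 * i + η ^ 3 / 512 * j)) * ((j : ℝ) + 2) := by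
          refine mul_le_mul ?_ e3 (by positivity) (by positivity)
          exact mul_le_mul_of_nonneg_right e2 e4.le
      _ = _ := by ring
  have hLk : (1 + Real.log ((2 * 2 ^ j : ℕ) : ℝ)) ^ k ≤ ((j : ℝ) + 2) ^ (⌈k⌉₊ : ℕ) := by
    calc (1 + Real.log ((2 * 2 ^ j : ℕ) : ℝ)) ^ k ≤ ((j : ℝ) + 2) ^ k :=
          Real.rpow_le_rpow hL0 hL hk
      _ ≤ ((j : ℝ) + 2) ^ ((⌈k⌉₊ : ℕ) : ℝ) :=
          Real.rpow_le_rpow_of_exponent_le hj2 (Nat.le_ceil k)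
      _ = _ := Real.rpow_natCast _ _
  set F : ℝ := (∑ q ∈ Icc 1 N, f q) ^ (2 * (1 / 2 + η ^ 2 / 512)) with hFd
  have hF0 : 0 ≤ F := Real.rpow_nonneg (Finset.sum_nonneg fun q _ => hf q) _
  have hspow : s ^ (2 * (1 - (1 / 2 + η ^ 2 / 512))) = 2 ^ (-(i : ℝ) + η ^ 2 / 256 * i) := by
    rw [hs, two_pow_pow]
    congr 1
    ring
  have hmain : TB G i j N f ≤ C * ((j : ℝ) + 2) ^ (⌈k⌉₊ : ℕ) * 2 ^ (-(i : ℝ) + η ^ 2 / 256 * i) *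
      (2 * ((j : ℝ) + 2) * 2 ^ (-(η ^ 2 / 128 * i + η ^ 3 / 512 * j))) * F := by
    refine (le_of_eq ?_).trans (h1.trans ?_)
    · rfl
    · rw [hspow]
      refine mul_le_mul_of_nonneg_right ?_ hF0
      refine mul_le_mul ?_ hZμ (by positivity) (by positivity)
      refine mul_le_mul_of_nonneg_right ?_ (by positivity)
      exact mul_le_mul_of_nonneg_left hLk hC.le
  calc 2 ^ ((i : ℝ) + 1) * TB G i j N f
      ≤ 2 ^ ((i : ℝ) + 1) * (C * ((j : ℝ) + 2) ^ (⌈k⌉₊ : ℕ) * 2 ^ (-(i : ℝ) + η ^ 2 / 256 * i) *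
      (2 * ((j : ℝ) + 2) * 2 ^ (-(η ^ 2 / 128 * i + η ^ 3 / 512 * j))) * F) :=
        mul_le_mul_of_nonneg_left hmain (by positivity)
    _ = 4 * C * (((j : ℝ) + 2) ^ (⌈k⌉₊ : ℕ) * ((j : ℝ) + 2)) *
          (2 ^ (i : ℝ) * 2 ^ (-(i : ℝ) + η ^ 2 / 256 * i) *
            2 ^ (-(η ^ 2 / 128 * i + η ^ 3 / 512 * j))) * F := by
        rw [Real.rpow_add (by norm_num), Real.rpow_one]
        ring
    _ = _ := by
        rw [two_mul_two, two_mul_two, ← pow_succ]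
        congr 3
        ring

end Vale.P028.Y
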