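import Vale.Agent.P028.MathlibUsed
import Mathlib.MeasureTheory.Measure.Hausdorff
import Mathlib.Topology.MetricSpace.HausdorffDimension
import Vale.Agent.P028.Y.Defs

/-!
# Finite Frostman lemma and covers
-/

namespace Vale.P028.Y

open Finset Vale.P028 MeasureTheory

/-- The finite dyadic Frostman lemma: weights and a cover of the same cost. -/
theorem frostman_aux (T : Finset ℕ) (L : ℕ → ℝ) (hL : ∀ d, 0 < L d) (d : ℕ) :
    ∀ j : ℕ, ∃ (m : ℕ → ℝ) (C : Finset (ℕ × ℕ)),
      (∀ i, 0 ≤ m i) ∧ (∀ i, i / 2 ^ d ≠ j → m i = 0) ∧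
      (∀ e ≤ d, ∀ k : ℕ, ∑ i ∈ T, (if i / 2 ^ e = k then m i else 0) ≤ L e) ∧
      (∀ i ∈ T, i / 2 ^ d = j → ∃ c ∈ C, c.1 ≤ d ∧ i / 2 ^ c.1 = c.2) ∧
      ∑ c ∈ C, L c.1 ≤ ∑ i ∈ T, m i := by
  classical
  induction d with
  | zero =>
    intro j
    by_cases hj : j ∈ T
    · refine ⟨fun i => if i = j then L 0 else 0, {(0, j)}, ?_, ?_, ?_, ?_, ?_⟩
      · intro i
        dsimp only
        split_ifs
        · exact (hL 0).le
        · exact le_rfl
      · intro i hi
        rw [pow_zero, Nat.div_one] at hi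
        simp only [if_neg hi]
      · intro e he k
        obtain rfl : e = 0 := by omega
        calc ∑ i ∈ T, (if i / 2 ^ 0 = k then (if i = j then L 0 else 0) else 0)
            ≤ ∑ i ∈ T, (if i = j then L 0 else 0) := by
              refine Finset.sum_le_sum fun i _ => ?_
              have := (hL 0).le
              split_ifs <;> first | exact le_rfl | exact this
          _ = L 0 := by rw [Finset.sum_ite_eq' T j, if_pos hj]
      · intro i _ hi
        refine ⟨(0, j), Finset.mem_singleton_self _, le_rfl, hi⟩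
      · rw [Finset.sum_singleton, Finset.sum_ite_eq' T j, if_pos hj]
    · refine ⟨fun _ => 0, ∅, fun _ => le_rfl, fun _ _ => rfl, ?_, ?_, ?_⟩
      · intro e _ k
        simp only [ite_self, Finset.sum_const_zero]
        exact (hL e).le
      · intro i hi hij
        rw [pow_zero, Nat.div_one] at hij
        exact absurd (hij ▸ hi) hj
      · simp
  | succ d ih =>
    intro j
    obtain ⟨m₀, C₀, h₀a, h₀b, h₀c, h₀d, h₀e⟩ := ih (2 * j)
    obtain ⟨m₁, C₁, h₁a, h₁b, h₁c, h₁d, h₁e⟩ := ih (2 * j + 1)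
    have hdiv : ∀ i : ℕ, i / 2 ^ (d + 1) = j ↔ (i / 2 ^ d = 2 * j ∨ i / 2 ^ d = 2 * j + 1) := by
      intro i
      rw [pow_succ, ← Nat.div_div_eq_div_mul]
      omega
    set m' : ℕ → ℝ := fun i => m₀ i + m₁ i with hm'
    have hm'0 : ∀ i, 0 ≤ m' i := fun i => add_nonneg (h₀a i) (h₁a i)
    have hm'b : ∀ i, i / 2 ^ (d + 1) ≠ j → m' i = 0 := by
      intro i hi
      rw [Ne, hdiv, not_or] at hi
      simp only [hm', h₀b i hi.1, h₁b i hi.2, add_zero]
    have hm'c : ∀ e ≤ d, ∀ k : ℕ, ∑ i ∈ T, (if i / 2 ^ e = k then m' i else 0) ≤ L e := by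
      intro e he k
      have hcoarse : ∀ i : ℕ, i / 2 ^ e = k → i / 2 ^ d = k / 2 ^ (d - e) := by
        intro i hi
        rw [← hi, Nat.div_div_eq_div_mul, ← pow_add]
        congr 2
        omega
      by_cases hk : k / 2 ^ (d - e) = 2 * j
      · refine le_trans (le_of_eq ?_) (h₀c e he k)
        refine Finset.sum_congr rfl fun i _ => ?_
        split_ifs with h
        · have := hcoarse i h
          simp only [hm']
          rw [h₁b i (by omega), add_zero]
        · rfl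
      · refine le_trans (le_of_eq ?_) (h₁c e he k)
        refine Finset.sum_congr rfl fun i _ => ?_
        split_ifs with h
        · have := hcoarse i h
          simp only [hm']
          rw [h₀b i (by omega), zero_add]
        · rfl
    have hsum : ∑ i ∈ T, m' i = ∑ i ∈ T, m₀ i + ∑ i ∈ T, m₁ i := Finset.sum_add_distrib
    set M := ∑ i ∈ T, m' i with hM
    have hblock : ∀ k : ℕ, ∑ i ∈ T, (if i / 2 ^ (d + 1) = k then m' i else 0) ≤ M := by
      intro k
      refine Finset.sum_le_sum fun i _ => ?_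
      split_ifs
      · exact le_rfl
      · exact hm'0 i
    by_cases hML : M ≤ L (d + 1)
    · refine ⟨m', C₀ ∪ C₁, hm'0, hm'b, ?_, ?_, ?_⟩
      · intro e he k
        rcases Nat.lt_or_ge e (d + 1) with h | h
        · exact hm'c e (by omega) k
        · obtain rfl : e = d + 1 := by omega
          exact (hblock k).trans hML
      · intro i hi hij
        rcases (hdiv i).1 hij with h | h
        · obtain ⟨c, hc, h1, h2⟩ := h₀d i hi h
          exact ⟨c, Finset.mem_union_left _ hc, by omega, h2⟩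
        · obtain ⟨c, hc, h1, h2⟩ := h₁d i hi h
          exact ⟨c, Finset.mem_union_right _ hc, by omega, h2⟩
      · calc ∑ c ∈ C₀ ∪ C₁, L c.1 ≤ ∑ c ∈ C₀, L c.1 + ∑ c ∈ C₁, L c.1 := by
              rw [← Finset.sum_union_inter]
              have : 0 ≤ ∑ c ∈ C₀ ∩ C₁, L c.1 := Finset.sum_nonneg fun c _ => (hL _).le
              linarith only [this]
          _ ≤ ∑ i ∈ T, m₀ i + ∑ i ∈ T, m₁ i := add_le_add h₀e h₁e
          _ = _ := hsum.symm
    · rw [not_le] at hML
      have hMpos : 0 < M := lt_trans (hL _) hML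
      set lam : ℝ := L (d + 1) / M with hlam
      have hlam0 : 0 ≤ lam := div_nonneg (hL _).le hMpos.le
      have hlam1 : lam ≤ 1 := (div_le_one hMpos).2 hML.le
      have hlM : lam * M = L (d + 1) := by
        rw [hlam]
        field_simp
      have hscale : ∀ e k : ℕ, ∑ i ∈ T, (if i / 2 ^ e = k then lam * m' i else 0) =
          lam * ∑ i ∈ T, (if i / 2 ^ e = k then m' i else 0) := by
        intro e k
        rw [Finset.mul_sum]
        refine Finset.sum_congr rfl fun i _ => ?_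
        split_ifs
        · rfl
        · rw [mul_zero]
      refine ⟨fun i => lam * m' i, {(d + 1, j)}, fun i => mul_nonneg hlam0 (hm'0 i), ?_, ?_, ?_, ?_⟩
      · intro i hi
        simp only [hm'b i hi, mul_zero]
      · intro e he k
        simp only
        rw [hscale]
        rcases Nat.lt_or_ge e (d + 1) with h | h
        · have h1 := hm'c e (by omega) k
          have h0 : 0 ≤ ∑ i ∈ T, (if i / 2 ^ e = k then m' i else 0) := by
            refine Finset.sum_nonneg fun i _ => ?_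
            split_ifs
            · exact hm'0 i
            · exact le_rfl
          nlinarith only [h1, h0, hlam1, hlam0]
        · obtain rfl : e = d + 1 := by omega
          calc lam * _ ≤ lam * M := mul_le_mul_of_nonneg_left (hblock k) hlam0
            _ = _ := hlM
      · intro i _ hij
        exact ⟨(d + 1, j), Finset.mem_singleton_self _, le_rfl, hij⟩
      · rw [Finset.sum_singleton, ← Finset.mul_sum, ← hM, hlM]

/-- Finite Frostman weights on a subset of `[0,1)` and a dyadic cover of the same cost. -/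
theorem frostman_finite (K : Set ℝ) (hK : K ⊆ Set.Ico 0 1) {η : ℝ} (hη : 0 < η) (hη1 : η ≤ 1)
    (n : ℕ) :
    ∃ (Γ : Finset ℝ) (m : ℝ → ℝ) (C : Finset (ℕ × ℕ)), (∀ g ∈ Γ, g ∈ K) ∧
      FW η ((1 / 2) ^ n) Γ m ∧
      (∀ x ∈ K, ∃ c ∈ C, c.1 ≤ n ∧ x ∈ Set.Ico ((c.2 : ℝ) * (2 ^ c.1 / 2 ^ n))
        (((c.2 : ℝ) + 1) * (2 ^ c.1 / 2 ^ n))) ∧
      ∑ c ∈ C, ((2 : ℝ) ^ c.1 / 2 ^ n) ^ η ≤ ∑ g ∈ Γ, m g := by
  classical
  have h2n : (0 : ℝ) < 2 ^ n := by positivity
  -- the indices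
  set T : Finset ℕ := (range (2 ^ n)).filter (fun i => ∃ x ∈ K, ⌊(2 : ℝ) ^ n * x⌋₊ = i) with hT
  have hTx : ∀ x ∈ K, ⌊(2 : ℝ) ^ n * x⌋₊ ∈ T := by
    intro x hx
    rw [hT, Finset.mem_filter, Finset.mem_range]
    refine ⟨?_, x, hx, rfl⟩
    have := hK hx
    rw [Nat.floor_lt (mul_nonneg h2n.le this.1)]
    push_cast
    nlinarith only [this.2, h2n]
  have hex : ∀ i ∈ T, ∃ x ∈ K, ⌊(2 : ℝ) ^ n * x⌋₊ = i := fun i hi => (Finset.mem_filter.1 hi).2
  obtain ⟨rep, hrep⟩ : ∃ rep : ℕ → ℝ, ∀ i ∈ T, rep i ∈ K ∧ ⌊(2 : ℝ) ^ n * rep i⌋₊ = i := by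
    refine ⟨fun i => if h : i ∈ T then (hex i h).choose else 0, ?_⟩
    intro i hi
    simp only [dif_pos hi]
    exact (hex i hi).choose_spec
  obtain ⟨w, C, hw0, hwb, hwc, hwd, hwe⟩ := frostman_aux T (fun e => ((2 : ℝ) ^ e / 2 ^ n) ^ η)
    (fun d => Real.rpow_pos_of_pos (by positivity) _) n 0
  have hinj : Set.InjOn rep T := by
    intro i hi j hj hij
    rw [← (hrep i hi).2, hij, (hrep j hj).2]
  have hsum : ∀ (F : ℝ → ℝ), ∑ g ∈ T.image rep, F g = ∑ i ∈ T, F (rep i) := fun F =>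
    Finset.sum_image hinj
  have hmi : ∀ i ∈ T, w ⌊(2 : ℝ) ^ n * rep i⌋₊ = w i := fun i hi => by rw [(hrep i hi).2]
  have htot : ∑ i ∈ T, w i ≤ 1 := by
    have h1 := hwc n le_rfl 0
    have e : ((2 : ℝ) ^ n / 2 ^ n) ^ η = 1 := by rw [div_self h2n.ne', Real.one_rpow]
    rw [e] at h1
    refine le_trans (le_of_eq ?_) h1
    refine Finset.sum_congr rfl fun i hi => ?_
    rw [if_pos]
    exact Nat.div_eq_of_lt (Finset.mem_range.1 (Finset.mem_filter.1 hi).1)
  refine ⟨T.image rep, fun g => w ⌊(2 : ℝ) ^ n * g⌋₊, C, ?_, ⟨?_, ?_, ?_, ?_⟩, ?_, ?_⟩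
  · intro g hg
    obtain ⟨i, hi, rfl⟩ := Finset.mem_image.1 hg
    exact (hrep i hi).1
  · intro g _
    exact hw0 _
  · intro g hg
    obtain ⟨i, hi, rfl⟩ := Finset.mem_image.1 hg
    have := hK (hrep i hi).1
    exact ⟨this.1, this.2.le⟩
  · rw [hsum, Finset.sum_congr rfl hmi]
    exact htot
  · -- Frostman property
    intro x ρ hδ hρ
    rw [hsum]
    rcases le_or_gt 1 ρ with h1 | h1
    · calc ∑ i ∈ T, (if |rep i - x| ≤ ρ then w ⌊(2 : ℝ) ^ n * rep i⌋₊ else 0)
          ≤ ∑ i ∈ T, w i := by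
            refine Finset.sum_le_sum fun i hi => ?_
            rw [hmi i hi]
            split_ifs
            · exact le_rfl
            · exact hw0 i
        _ ≤ 1 := htot
        _ ≤ 8 * ρ ^ η := by
            have := Real.one_le_rpow h1 hη.le
            linarith only [this]
    -- choose the dyadic scale
    have hexe : ∃ e : ℕ, ρ ≤ (2 : ℝ) ^ e / 2 ^ n := ⟨n, by
      rw [div_self h2n.ne']
      exact h1.le⟩
    have hen : Nat.find hexe ≤ n := Nat.find_min' hexe (by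
      rw [div_self h2n.ne']
      exact h1.le)
    have hspec := Nat.find_spec hexe
    have hmin := fun {m : ℕ} => Nat.find_min (m := m) hexe
    set e := Nat.find hexe with he
    have hle2 : (2 : ℝ) ^ e / 2 ^ n ≤ 2 * ρ := by
      rcases Nat.eq_zero_or_pos e with h0 | h0
      · rw [h0, pow_zero]
        have : (1 : ℝ) / 2 ^ n = (1 / 2) ^ n := by
          rw [one_div_pow]
        rw [this]
        linarith only [hδ, hρ]
      · have h2 := hmin (m := e - 1) (by omega)
        rw [not_le] at h2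
        have e1 : (2 : ℝ) ^ e = 2 * 2 ^ (e - 1) := by
          rw [← pow_succ']
          congr 1
          omega
        rw [e1, mul_div_assoc]
        linarith only [h2]
    set lam : ℝ := (2 : ℝ) ^ e / 2 ^ n with hlam
    have hlam0 : 0 < lam := by positivity
    -- the block index of a point
    have hblock : ∀ i ∈ T, ∀ g : ℝ, g = rep i → ((i / 2 ^ e : ℕ) : ℝ) * lam ≤ g ∧
        g < (((i / 2 ^ e : ℕ) : ℝ) + 1) * lam := by
      intro i hi g hg
      have hg0 : 0 ≤ g := by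
        rw [hg]
        exact (hK (hrep i hi).1).1
      have hfl : ⌊(2 : ℝ) ^ n * g⌋₊ = i := by rw [hg]; exact (hrep i hi).2
      have e2 : ((i / 2 ^ e : ℕ)) = ⌊g / lam⌋₊ := by
        rw [← hfl, ← Nat.floor_div_natCast]
        congr 1
        rw [hlam]
        push_cast
        field_simp
      rw [e2]
      have hgl : 0 ≤ g / lam := div_nonneg hg0 hlam0.le
      have h3 := Nat.floor_le hgl
      have h4 := Nat.lt_floor_add_one (g / lam)
      rw [le_div_iff₀ hlam0] at h3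
      rw [div_lt_iff₀ hlam0] at h4
      exact ⟨h3, h4⟩
    have hthree : ∀ i ∈ T, |rep i - x| ≤ ρ →
        (((i / 2 ^ e : ℕ) : ℤ) = ⌊x / lam⌋ - 1 ∨ ((i / 2 ^ e : ℕ) : ℤ) = ⌊x / lam⌋ ∨
          ((i / 2 ^ e : ℕ) : ℤ) = ⌊x / lam⌋ + 1) := by
      intro i hi hd
      obtain ⟨h3, h4⟩ := hblock i hi _ rfl
      rw [abs_le] at hd
      generalize i / 2 ^ e = kk at h3 h4 ⊢
      have h5 : (⌊x / lam⌋ : ℝ) ≤ x / lam := Int.floor_le _
      have h6 : x / lam < ⌊x / lam⌋ + 1 := Int.lt_floor_add_one _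
      rw [le_div_iff₀ hlam0] at h5
      rw [div_lt_iff₀ hlam0] at h6
      have h7 : ((kk : ℤ) : ℝ) < (⌊x / lam⌋ + 2 : ℤ) := by
        push_cast
        by_contra hcon
        rw [not_lt] at hcon
        have := mul_le_mul_of_nonneg_right hcon hlam0.le
        nlinarith only [this, h3, hd.2, h6, hspec]
      have h8 : ((⌊x / lam⌋ - 2 : ℤ) : ℝ) < ((kk : ℤ) : ℝ) := by
        push_cast
        by_contra hcon
        rw [not_lt] at hcon
        have := mul_le_mul_of_nonneg_right hcon hlam0.le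
        nlinarith only [this, h4, hd.1, h5, hspec]
      have h7' : (kk : ℤ) < ⌊x / lam⌋ + 2 := by exact_mod_cast h7
      have h8' : ⌊x / lam⌋ - 2 < (kk : ℤ) := by exact_mod_cast h8
      omega
    have hone : ∀ z : ℤ, ∑ i ∈ T, (if ((i / 2 ^ e : ℕ) : ℤ) = z then w i else 0) ≤ lam ^ η := by
      intro z
      rcases le_or_gt 0 z with hz | hz
      · refine le_trans (le_of_eq ?_) (hwc e hen z.toNat)
        refine Finset.sum_congr rfl fun i _ => ?_
        have : ((i / 2 ^ e : ℕ) : ℤ) = z ↔ i / 2 ^ e = z.toNat := by omega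
        by_cases h : i / 2 ^ e = z.toNat
        · rw [if_pos h, if_pos (this.2 h)]
        · rw [if_neg h, if_neg (fun h' => h (this.1 h'))]
      · rw [Finset.sum_eq_zero]
        · positivity
        · intro i _
          rw [if_neg]
          intro h
          have := Int.natCast_nonneg (i / 2 ^ e)
          omega
    calc ∑ i ∈ T, (if |rep i - x| ≤ ρ then w ⌊(2 : ℝ) ^ n * rep i⌋₊ else 0)
        ≤ ∑ i ∈ T, ((if ((i / 2 ^ e : ℕ) : ℤ) = ⌊x / lam⌋ - 1 then w i else 0) +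
            ((if ((i / 2 ^ e : ℕ) : ℤ) = ⌊x / lam⌋ then w i else 0) +
            (if ((i / 2 ^ e : ℕ) : ℤ) = ⌊x / lam⌋ + 1 then w i else 0))) := by
          refine Finset.sum_le_sum fun i hi => ?_
          rw [hmi i hi]
          have hwi := hw0 i
          by_cases hd : |rep i - x| ≤ ρ
          · rw [if_pos hd]
            have a1 : 0 ≤ (if ((i / 2 ^ e : ℕ) : ℤ) = ⌊x / lam⌋ - 1 then w i else 0) := by
              split_ifs
              · exact hwi
              · exact le_rfl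
            have a2 : 0 ≤ (if ((i / 2 ^ e : ℕ) : ℤ) = ⌊x / lam⌋ then w i else 0) := by
              split_ifs
              · exact hwi
              · exact le_rfl
            have a3 : 0 ≤ (if ((i / 2 ^ e : ℕ) : ℤ) = ⌊x / lam⌋ + 1 then w i else 0) := by
              split_ifs
              · exact hwi
              · exact le_rfl
            rcases hthree i hi hd with h | h | h
            · rw [if_pos h]
              linarith only [a2, a3]
            · rw [if_pos h]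
              linarith only [a1, a3]
            · rw [if_pos h]
              linarith only [a1, a2]
          · rw [if_neg hd]
            have a1 : 0 ≤ (if ((i / 2 ^ e : ℕ) : ℤ) = ⌊x / lam⌋ - 1 then w i else 0) := by
              split_ifs
              · exact hwi
              · exact le_rfl
            have a2 : 0 ≤ (if ((i / 2 ^ e : ℕ) : ℤ) = ⌊x / lam⌋ then w i else 0) := by
              split_ifs
              · exact hwi
              · exact le_rfl
            have a3 : 0 ≤ (if ((i / 2 ^ e : ℕ) : ℤ) = ⌊x / lam⌋ + 1 then w i else 0) := by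
              split_ifs
              · exact hwi
              · exact le_rfl
            linarith only [a1, a2, a3]
      _ ≤ lam ^ η + (lam ^ η + lam ^ η) := by
          rw [Finset.sum_add_distrib, Finset.sum_add_distrib]
          exact add_le_add (hone _) (add_le_add (hone _) (hone _))
      _ = 3 * lam ^ η := by ring
      _ ≤ 3 * (2 * ρ) ^ η := by
          have := Real.rpow_le_rpow hlam0.le hle2 hη.le
          linarith only [this]
      _ ≤ 8 * ρ ^ η := by
          rw [Real.mul_rpow (by norm_num) hρ.le]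
          have h2η : (2 : ℝ) ^ η ≤ 2 := by
            calc (2 : ℝ) ^ η ≤ (2 : ℝ) ^ (1 : ℝ) :=
                  Real.rpow_le_rpow_of_exponent_le (by norm_num) hη1
              _ = 2 := Real.rpow_one _
          have : 0 ≤ ρ ^ η := Real.rpow_nonneg hρ.le _
          nlinarith only [this, h2η]
  · intro x hx
    obtain ⟨c, hc, hc1, hc2⟩ := hwd _ (hTx x hx) (by
      exact Nat.div_eq_of_lt (Finset.mem_range.1 (Finset.mem_filter.1 (hTx x hx)).1))
    refine ⟨c, hc, hc1, ?_⟩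
    set lam : ℝ := (2 : ℝ) ^ c.1 / 2 ^ n with hlam
    have hlam0 : 0 < lam := by positivity
    have hx0 : 0 ≤ x := (hK hx).1
    have e2 : c.2 = ⌊x / lam⌋₊ := by
      rw [← hc2, ← Nat.floor_div_natCast]
      congr 1
      rw [hlam]
      push_cast
      field_simp
    rw [e2]
    have hgl : 0 ≤ x / lam := div_nonneg hx0 hlam0.le
    have h3 := Nat.floor_le hgl
    have h4 := Nat.lt_floor_add_one (x / lam)
    rw [le_div_iff₀ hlam0] at h3
    rw [div_lt_iff₀ hlam0] at h4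
    exact ⟨h3, h4⟩
  · rw [hsum, Finset.sum_congr rfl hmi]
    exact hwe

/-- If every Frostman weight on `K` of a fine scale has small mass then `μH[η] K = 0`. -/
theorem cover_lemma (K : Set ℝ) (hK : K ⊆ Set.Ico 0 1) {η : ℝ} (hη : 0 < η) (hη1 : η ≤ 1)
    (h : ∀ ε : ℝ, 0 < ε → ∃ δ : ℝ, 0 < δ ∧ ∀ (Γ : Finset ℝ) (m : ℝ → ℝ), (∀ g ∈ Γ, g ∈ K) →
      FW η δ Γ m → ∑ g ∈ Γ, m g ≤ ε) : μH[η] K = 0 := by
  classical
  have hcov : ∀ k : ℕ, ∃ (n : ℕ) (C : Finset (ℕ × ℕ)),
      (∀ x ∈ K, ∃ c ∈ C, c.1 ≤ n ∧ x ∈ Set.Ico ((c.2 : ℝ) * (2 ^ c.1 / 2 ^ n))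
        (((c.2 : ℝ) + 1) * (2 ^ c.1 / 2 ^ n))) ∧
      ∑ c ∈ C, ((2 : ℝ) ^ c.1 / 2 ^ n) ^ η ≤ 1 / ((k : ℝ) + 1) := by
    intro k
    obtain ⟨δ, hδ0, hδ⟩ := h (1 / ((k : ℝ) + 1)) (by positivity)
    obtain ⟨n, hn⟩ := exists_pow_lt_of_lt_one hδ0 (show (1 / 2 : ℝ) < 1 by norm_num)
    obtain ⟨Γ, m, C, hΓ, hF, hC, hsum⟩ := frostman_finite K hK hη hη1 n
    refine ⟨n, C, hC, hsum.trans (hδ Γ m hΓ ⟨hF.1, hF.2.1, hF.2.2.1, ?_⟩)⟩
    intro x ρ hδρ hρ
    exact hF.2.2.2 x ρ (hn.le.trans hδρ) hρ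
  choose n C hC hsum using hcov
  have hlen : ∀ k : ℕ, ∀ c ∈ C k, (2 : ℝ) ^ c.1 / 2 ^ n k ≤ (1 / ((k : ℝ) + 1)) ^ (1 / η) := by
    intro k c hc
    have h0 : (0 : ℝ) < 2 ^ c.1 / 2 ^ n k := by positivity
    have h1 : ((2 : ℝ) ^ c.1 / 2 ^ n k) ^ η ≤ 1 / ((k : ℝ) + 1) := by
      refine le_trans ?_ (hsum k)
      exact Finset.single_le_sum (f := fun c : ℕ × ℕ => ((2 : ℝ) ^ c.1 / 2 ^ n k) ^ η)
        (fun c _ => by positivity) hc
    calc (2 : ℝ) ^ c.1 / 2 ^ n k = (((2 : ℝ) ^ c.1 / 2 ^ n k) ^ η) ^ (1 / η) := by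
          rw [← Real.rpow_mul h0.le, mul_one_div_cancel hη.ne', Real.rpow_one]
      _ ≤ _ := Real.rpow_le_rpow (by positivity) h1 (by positivity)
  have hr0 : Filter.Tendsto (fun k : ℕ => ENNReal.ofReal ((1 / ((k : ℝ) + 1)) ^ (1 / η)))
      Filter.atTop (nhds 0) := by
    rw [← ENNReal.ofReal_zero]
    refine ENNReal.tendsto_ofReal ?_
    have h1 : Filter.Tendsto (fun k : ℕ => 1 / ((k : ℝ) + 1)) Filter.atTop (nhds 0) :=
      tendsto_one_div_add_atTop_nhds_zero_nat
    have h2 := h1.rpow_const (p := 1 / η) (Or.inr (by positivity))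
    rwa [Real.zero_rpow (by positivity)] at h2
  have hmain := Measure.hausdorffMeasure_le_liminf_sum (X := ℝ) (β := ℕ)
    (ι := fun k => {c : ℕ × ℕ // c ∈ C k}) η K (l := Filter.atTop)
    (fun k : ℕ => ENNReal.ofReal ((1 / ((k : ℝ) + 1)) ^ (1 / η))) hr0
    (fun k c => Set.Ico (((c : ℕ × ℕ).2 : ℝ) * (2 ^ (c : ℕ × ℕ).1 / 2 ^ n k))
        ((((c : ℕ × ℕ).2 : ℝ) + 1) * (2 ^ (c : ℕ × ℕ).1 / 2 ^ n k)))
    (Filter.Eventually.of_forall fun k c => by
      rw [Real.ediam_Ico]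
      apply ENNReal.ofReal_le_ofReal
      have := hlen k c.1 c.2
      linarith only [this])
    (Filter.Eventually.of_forall fun k x hx => by
      obtain ⟨c, hc, _, hx2⟩ := hC k x hx
      rw [Set.mem_iUnion]
      exact ⟨⟨c, hc⟩, hx2⟩)
  refine le_antisymm (hmain.trans ?_) bot_le
  have hle : ∀ k : ℕ, ∑ c : {c : ℕ × ℕ // c ∈ C k}, (Metric.ediam
      (Set.Ico (((c : ℕ × ℕ).2 : ℝ) * (2 ^ (c : ℕ × ℕ).1 / 2 ^ n k))
        ((((c : ℕ × ℕ).2 : ℝ) + 1) * (2 ^ (c : ℕ × ℕ).1 / 2 ^ n k)))) ^ η ≤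
      ENNReal.ofReal (1 / ((k : ℝ) + 1)) := by
    intro k
    have e1 : ∀ c : {c : ℕ × ℕ // c ∈ C k}, (Metric.ediam
      (Set.Ico (((c : ℕ × ℕ).2 : ℝ) * (2 ^ (c : ℕ × ℕ).1 / 2 ^ n k))
        ((((c : ℕ × ℕ).2 : ℝ) + 1) * (2 ^ (c : ℕ × ℕ).1 / 2 ^ n k)))) ^ η =
        ENNReal.ofReal (((2 : ℝ) ^ (c : ℕ × ℕ).1 / 2 ^ n k) ^ η) := by
      intro c
      rw [Real.ediam_Ico, ENNReal.ofReal_rpow_of_nonneg _ hη.le]
      · congr 2
        ring
      · have : (0 : ℝ) < 2 ^ (c : ℕ × ℕ).1 / 2 ^ n k := by positivity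
        linarith only [this]
    rw [Finset.sum_congr rfl fun c _ => e1 c, ← ENNReal.ofReal_sum_of_nonneg (fun c _ => by positivity)]
    apply ENNReal.ofReal_le_ofReal
    refine le_trans (le_of_eq ?_) (hsum k)
    exact Finset.sum_coe_sort (C k) (fun c : ℕ × ℕ => ((2 : ℝ) ^ c.1 / 2 ^ n k) ^ η)
  have h0 : Filter.Tendsto (fun k : ℕ => ENNReal.ofReal (1 / ((k : ℝ) + 1)))
      Filter.atTop (nhds 0) := by
    rw [← ENNReal.ofReal_zero]
    exact ENNReal.tendsto_ofReal tendsto_one_div_add_atTop_nhds_zero_nat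
  calc _ ≤ Filter.liminf (fun k : ℕ => ENNReal.ofReal (1 / ((k : ℝ) + 1))) Filter.atTop :=
        Filter.liminf_le_liminf (Filter.Eventually.of_forall hle)
    _ = 0 := h0.liminf_eq

end Vale.P028.Y
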