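import Vale.Agent.P028.MathlibUsed
import Vale.Agent.P028.Y.BoxT

/-!
# The averaged energy
-/

namespace Vale.P028.Y

open Finset Vale.P028

open Classical in
/-- The energy of a finite set for the shift `γ`. -/
noncomputable def En (ψ : ℕ → ℝ) (S : Finset ℕ) (γ : ℝ) : ℝ :=
  ∑ p ∈ S ×ˢ S, if (DD p.1 p.2 (ψ p.1) (ψ p.2) < 1 / 4 ∧
      ∃ m : ℤ, |(m : ℝ) - (((p.2 / Nat.gcd p.1 p.2 : ℕ) : ℝ) - (p.1 / Nat.gcd p.1 p.2 : ℕ)) * γ|
        < 2 * DD p.1 p.2 (ψ p.1) (ψ p.2)) then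
    ψ p.1 * ψ p.2 / DD p.1 p.2 (ψ p.1) (ψ p.2) else 0

theorem geom_sum_le {a : ℝ} (ha0 : 0 ≤ a) (ha1 : a < 1) (n : ℕ) :
    ∑ i ∈ range n, a ^ i ≤ 1 / (1 - a) := by
  rw [geom_sum_eq ha1.ne, ← neg_div_neg_eq, neg_sub, neg_sub]
  refine div_le_div_of_nonneg_right ?_ (by linarith only [ha1])
  have := pow_nonneg ha0 n
  linarith only [this]

theorem poly_geom {b : ℝ} (hb0 : 0 ≤ b) (hb1 : b < 1) (k : ℕ) :
    ∃ K : ℝ, 0 ≤ K ∧ ∀ n : ℕ, ∑ j ∈ range n, ((j : ℝ) + 2) ^ k * b ^ j ≤ K := by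
  have h1 : Summable (fun j : ℕ => ((j : ℝ) + 2) ^ k * b ^ j) := by
    have h2 : Summable (fun j : ℕ => (j : ℝ) ^ k * b ^ j) :=
      summable_pow_mul_geometric_of_norm_lt_one k (by rwa [Real.norm_of_nonneg hb0])
    rcases eq_or_lt_of_le hb0 with h0 | h0
    · refine summable_of_ne_finset_zero (s := {0}) ?_
      intro j hj
      rw [Finset.mem_singleton] at hj
      rw [← h0, zero_pow hj, mul_zero]
    · have h3 := ((summable_nat_add_iff 2).2 h2).mul_left (b ^ 2)⁻¹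
      refine h3.congr fun j => ?_
      push_cast
      rw [pow_add]
      field_simp
  refine ⟨∑' j : ℕ, ((j : ℝ) + 2) ^ k * b ^ j, tsum_nonneg fun j => by positivity, fun n => ?_⟩
  exact h1.sum_le_tsum _ (fun j _ => by positivity)

theorem cofac_eq_div (q r : ℕ) : cofac q r = q / Nat.gcd q r := rfl

theorem cofac_eq_div' (q r : ℕ) : cofac r q = r / Nat.gcd q r := by
  unfold cofac
  rw [Nat.gcd_comm]

theorem DD_cofac (q r : ℕ) (hq : 0 < q) (α β : ℝ) :
    DD q r α β = max ((cofac r q : ℝ) * α) ((cofac q r : ℝ) * β) := by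
  rw [DD_eq q r hq, cofac_eq_div q r, cofac_eq_div' q r]

open Classical in
theorem energy_avg {η : ℝ} (hη : 0 < η) (hη1 : η ≤ 1 / 2) :
    ∃ θ C : ℝ, θ < 1 ∧ 0 < C ∧ ∀ (ψ : ℕ → ℝ) (S : Finset ℕ), (∀ q ∈ S, 0 < q ∧ 0 < ψ q) →
      1 ≤ ∑ q ∈ S, ψ q → ∃ δ : ℝ, 0 < δ ∧ ∀ (Γ : Finset ℝ) (m : ℝ → ℝ), FW η δ Γ m →
        ∑ g ∈ Γ, m g * En ψ S g ≤ 128 * (∑ g ∈ Γ, m g) * (∑ q ∈ S, ψ q) ^ 2 +
          C * (∑ q ∈ S, ψ q) ^ (2 * θ) := by
  have hη2 : η ^ 2 ≤ 1 := by nlinarith only [hη, hη1]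
  have hη20 : 0 < η ^ 2 := by positivity
  have hη30 : 0 < η ^ 3 := by positivity
  obtain ⟨C, k, hC, hT⟩ := box_T hη hη1
  set a : ℝ := 2 ^ (-(η ^ 2 / 256)) with ha
  set b : ℝ := 2 ^ (-(η ^ 3 / 512)) with hb
  have ha0 : 0 ≤ a := by positivity
  have hb0 : 0 ≤ b := by positivity
  have ha1 : a < 1 := Real.rpow_lt_one_of_one_lt_of_neg (by norm_num) (by linarith only [hη20])
  have hb1 : b < 1 := Real.rpow_lt_one_of_one_lt_of_neg (by norm_num) (by linarith only [hη30])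
  obtain ⟨K, hK0, hK⟩ := poly_geom hb0 hb1 k
  have h1a : 0 < 1 - a := by linarith only [ha1]
  refine ⟨1 / 2 + η ^ 2 / 512, 1 + C * (1 / (1 - a)) * K, by linarith only [hη2],
    by positivity, ?_⟩
  intro ψ S hS hF1
  set F : ℝ := ∑ q ∈ S, ψ q with hF
  -- parameters of the finite set
  obtain ⟨N, hN⟩ : ∃ N : ℕ, ∀ q ∈ S, q ≤ N := ⟨S.sup id, fun q hq => Finset.le_sup (f := id) hq⟩
  obtain ⟨I, hI1, hI⟩ : ∃ I : ℕ, 1 ≤ I ∧ ∀ q ∈ S, (2 : ℝ) ^ (-(I : ℝ)) ≤ ψ q := by
    have hex : ∀ q ∈ S, ∃ I : ℕ, (1 / 2 : ℝ) ^ I ≤ ψ q := by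
      intro q hq
      obtain ⟨n, hn⟩ := exists_pow_lt_of_lt_one (hS q hq).2 (show (1 / 2 : ℝ) < 1 by norm_num)
      exact ⟨n, hn.le⟩
    choose! I hI using hex
    refine ⟨S.sup I + 1, by omega, fun q hq => ?_⟩
    have h1 : I q ≤ S.sup I + 1 := (Finset.le_sup (f := I) hq).trans (Nat.le_succ _)
    have h2 : (2 : ℝ) ^ (-((S.sup I + 1 : ℕ) : ℝ)) = (1 / 2) ^ (S.sup I + 1) := by
      rw [Real.rpow_neg (by norm_num), Real.rpow_natCast, one_div, inv_pow]
    rw [h2]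
    exact (pow_le_pow_of_le_one (by norm_num) (by norm_num) h1).trans (hI q hq)
  set J : ℕ := N + 1 with hJ
  refine ⟨2 ^ (-((I : ℝ) + J)), by positivity, ?_⟩
  intro Γ m hFW
  have hm0 := hFW.1
  set M : ℝ := ∑ g ∈ Γ, m g with hM
  have hM0 : 0 ≤ M := Finset.sum_nonneg hm0
  have hM1 : M ≤ 1 := hFW.2.2.1
  have hGex : ∀ i j : ℕ, (i < I ∧ j < J) → ∃ G : ℤ → ℝ, (∀ h, 0 ≤ G h) ∧ (∀ h, G h ≤ 1) ∧
      (∀ h, kap Γ m (2 ^ (-(i : ℝ))) h ≤ 64 * 2 ^ (-(i : ℝ)) * M + G h) ∧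
      ∀ (N : ℕ) (f : ℕ → ℝ), (∀ q, 0 ≤ f q) →
        2 ^ ((i : ℝ) + 1) * TB G i j N f ≤
          C * ((j : ℝ) + 2) ^ k * 2 ^ (-(η ^ 2 / 256 * i + η ^ 3 / 512 * j)) *
            (∑ q ∈ Icc 1 N, f q) ^ (2 * (1 / 2 + η ^ 2 / 512)) := by
    intro i j hij
    refine hT _ Γ m hFW i j ?_
    rw [two_mul_two]
    refine two_le_two ?_
    have h1 : (i : ℝ) ≤ I := by exact_mod_cast hij.1.le
    have h2 : (j : ℝ) ≤ J := by exact_mod_cast hij.2.le
    linarith only [h1, h2]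
  choose! G hG0 hG1 hGk hGT using hGex
  set f : ℕ → ℝ := fun q => if q ∈ S then ψ q else 0 with hf
  have hf0 : ∀ q, 0 ≤ f q := by
    intro q
    simp only [hf]
    split_ifs with h
    · exact (hS q h).2.le
    · exact le_rfl
  have hSsub : S ⊆ Icc 1 N := fun q hq => Finset.mem_Icc.2 ⟨(hS q hq).1, hN q hq⟩
  have hfF : ∑ q ∈ Icc 1 N, f q = F := by
    rw [hF, ← Finset.sum_subset hSsub (f := f)]
    · refine Finset.sum_congr rfl fun q hq => ?_
      simp only [hf, if_pos hq]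
    · intro q _ hq
      simp only [hf, if_neg hq]
  -- the box terms
  set tb : ℕ → ℕ → ℕ → ℕ → ℝ := fun i j q r => (if (cofac r q : ℝ) * f q ≤ 2 ^ (-(i : ℝ)) ∧
    (cofac q r : ℝ) * f r ≤ 2 ^ (-(i : ℝ)) ∧ cofac q r ≤ 2 * 2 ^ j ∧ cofac r q ≤ 2 * 2 ^ j then
      f q * f r * kb (G i j) j (cofac q r) (cofac r q) else 0) with htb
  have hkb0 : ∀ i j, i < I → j < J → ∀ u v, 0 ≤ kb (G i j) j u v := by
    intro i j hi hj u v
    unfold kb
    split_ifs
    · exact hG0 i j ⟨hi, hj⟩ _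
    · exact le_rfl
  have htb0 : ∀ i j, i < I → j < J → ∀ q r, 0 ≤ tb i j q r := by
    intro i j hi hj q r
    simp only [htb]
    split_ifs
    · exact mul_nonneg (mul_nonneg (hf0 q) (hf0 r)) (hkb0 i j hi hj _ _)
    · exact le_rfl
  -- mass of the shifts for a pair
  set A : ℕ × ℕ → ℝ := fun p => ∑ g ∈ Γ, if (∃ z : ℤ, |(z : ℝ) - (((p.2 / Nat.gcd p.1 p.2 : ℕ) : ℝ) -
      (p.1 / Nat.gcd p.1 p.2 : ℕ)) * g| < 2 * DD p.1 p.2 (ψ p.1) (ψ p.2)) then m g else 0 with hA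
  have hA0 : ∀ p, 0 ≤ A p := by
    intro p
    refine Finset.sum_nonneg fun g hg => ?_
    split_ifs
    · exact hm0 g hg
    · exact le_rfl
  have hAM : ∀ p, A p ≤ M := by
    intro p
    refine Finset.sum_le_sum fun g hg => ?_
    split_ifs
    · exact le_rfl
    · exact hm0 g hg
  have hpair : ∀ p ∈ S ×ˢ S, (if DD p.1 p.2 (ψ p.1) (ψ p.2) < 1 / 4 then
      ψ p.1 * ψ p.2 / DD p.1 p.2 (ψ p.1) (ψ p.2) * A p else 0) ≤
      (if p.1 = p.2 then ψ p.1 else 0) + 128 * M * (ψ p.1 * ψ p.2) +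
        ∑ i ∈ range I, ∑ j ∈ range J, 2 ^ ((i : ℝ) + 1) * tb i j p.1 p.2 := by
    rintro ⟨q, r⟩ hp
    rw [Finset.mem_product] at hp
    obtain ⟨hq, hr⟩ := hp
    dsimp only at hq hr ⊢
    obtain ⟨hq0, hψq⟩ := hS q hq
    obtain ⟨hr0, hψr⟩ := hS r hr
    have hψψ : 0 ≤ ψ q * ψ r := by positivity
    have hsum0 : 0 ≤ ∑ i ∈ range I, ∑ j ∈ range J, 2 ^ ((i : ℝ) + 1) * tb i j q r := by
      refine Finset.sum_nonneg fun i hi => Finset.sum_nonneg fun j hj => ?_
      exact mul_nonneg (by positivity)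
        (htb0 i j (Finset.mem_range.1 hi) (Finset.mem_range.1 hj) q r)
    have h128 : 0 ≤ 128 * M * (ψ q * ψ r) := by positivity
    have hdiag0 : 0 ≤ (if q = r then ψ q else 0) := by
      split_ifs
      · exact hψq.le
      · exact le_rfl
    by_cases hD : DD q r (ψ q) (ψ r) < 1 / 4
    swap
    · rw [if_neg hD]
      linarith only [hsum0, h128, hdiag0]
    rw [if_pos hD]
    by_cases hqr : q = r
    · subst hqr
      have hDq : DD q q (ψ q) (ψ q) = ψ q := by
        rw [DD_cofac q q hq0, cofac_self hq0, max_self, Nat.cast_one, one_mul]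
      rw [if_pos rfl, hDq, mul_div_assoc, div_self hψq.ne', mul_one]
      have h1 : A (q, q) ≤ 1 := (hAM _).trans hM1
      have h2 := mul_le_mul_of_nonneg_left h1 hψq.le
      linarith only [h2, hsum0, h128]
    rw [if_neg hqr]
    have hu1 : 0 < cofac q r := cofac_pos r hq0
    have hv1 : 0 < cofac r q := cofac_pos q hr0
    have huv : cofac q r ≠ cofac r q := by
      intro h
      apply hqr
      have e1 := gcd_mul_cofac q r
      have e2 := gcd_mul_cofac r q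
      rw [Nat.gcd_comm, ← h] at e2
      exact e1.symm.trans e2
    have hDe := DD_cofac q r hq0 (ψ q) (ψ r)
    set D : ℝ := DD q r (ψ q) (ψ r) with hDd
    have hv1' : (1 : ℝ) ≤ cofac r q := by exact_mod_cast hv1
    have hDψ : ψ q ≤ D := by
      rw [hDe]
      refine le_trans ?_ (le_max_left _ _)
      nlinarith only [hv1', hψq]
    have hD0 : 0 < D := lt_of_lt_of_le hψq hDψ
    -- level
    have hexi : ∃ i : ℕ, (2 : ℝ) ^ (-((i : ℝ) + 1)) ≤ D := by
      refine ⟨I - 1, ?_⟩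
      refine le_trans ?_ ((hI q hq).trans hDψ)
      refine two_le_two ?_
      have : ((I - 1 : ℕ) : ℝ) = I - 1 := by
        push_cast [hI1]
        ring
      rw [this]
      linarith only []
    have hiI : Nat.find hexi < I := by
      have : Nat.find hexi ≤ I - 1 := by
        apply Nat.find_min'
        refine le_trans ?_ ((hI q hq).trans hDψ)
        refine two_le_two ?_
        have : ((I - 1 : ℕ) : ℝ) = I - 1 := by
          push_cast [hI1]
          ring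
        rw [this]
        linarith only []
      omega
    have hspec := Nat.find_spec hexi
    have hmin := fun {n : ℕ} => Nat.find_min (m := n) hexi
    set i := Nat.find hexi with hi
    have hDi : D < 2 ^ (-(i : ℝ)) := by
      rcases Nat.eq_zero_or_pos i with h0 | h0
      · rw [h0]
        norm_num
        linarith only [hD]
      · have h1 := hmin (n := i - 1) (by omega)
        rw [not_le] at h1
        have : ((i - 1 : ℕ) : ℝ) = i - 1 := by
          have : 1 ≤ i := h0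
          push_cast [this]
          ring
        rw [this, sub_add_cancel] at h1
        exact h1
    -- box
    set j := Nat.log 2 (max (cofac q r) (cofac r q)) with hj
    have hmaxN : max (cofac q r) (cofac r q) ≤ N :=
      max_le ((cofac_le r hq0).trans (hN q hq)) ((cofac_le q hr0).trans (hN r hr))
    have hmax0 : max (cofac q r) (cofac r q) ≠ 0 := by
      have := le_max_left (cofac q r) (cofac r q)
      omega
    have hj1 : 2 ^ j ≤ max (cofac q r) (cofac r q) := Nat.pow_log_le_self 2 hmax0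
    have hj2 : max (cofac q r) (cofac r q) < 2 * 2 ^ j := by
      have := Nat.lt_pow_succ_log_self (b := 2) (by norm_num) (max (cofac q r) (cofac r q))
      rwa [← hj, pow_succ, mul_comm] at this
    have hjJ : j < J := by
      have h1 : j < 2 ^ j := Nat.lt_two_pow_self
      omega
    have hAk : A (q, r) ≤ kap Γ m (2 ^ (-(i : ℝ))) ((cofac r q : ℤ) - cofac q r) := by
      simp only [hA]
      unfold kap
      refine Finset.sum_le_sum fun g hg => ?_
      have hmg := hm0 g hg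
      by_cases hz : ∃ z : ℤ, |(z : ℝ) - (((r / Nat.gcd q r : ℕ) : ℝ) -
          (q / Nat.gcd q r : ℕ)) * g| < 2 * DD q r (ψ q) (ψ r)
      · rw [if_pos hz]
        obtain ⟨z, hz⟩ := hz
        rw [if_pos]
        have e : (((cofac r q : ℤ) - cofac q r : ℤ) : ℝ) * g =
            (((r / Nat.gcd q r : ℕ) : ℝ) - (q / Nat.gcd q r : ℕ)) * g := by
          rw [cofac_eq_div q r, cofac_eq_div' q r, Int.cast_sub, Int.cast_natCast, Int.cast_natCast]
        rw [e]
        refine lt_of_le_of_lt (round_le _ z) ?_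
        rw [abs_sub_comm]
        refine lt_of_lt_of_le hz ?_
        linarith only [hDi]
      · rw [if_neg hz]
        split_ifs
        · exact hmg
        · exact le_rfl
    have hGk' := hGk i j ⟨hiI, hjJ⟩ ((cofac r q : ℤ) - cofac q r)
    set Gv : ℝ := G i j ((cofac r q : ℤ) - cofac q r) with hGv
    have hGv0 : 0 ≤ Gv := hG0 i j ⟨hiI, hjJ⟩ _
    have htbv : tb i j q r = ψ q * ψ r * Gv := by
      simp only [htb]
      rw [if_pos]
      · unfold kb
        rw [if_pos ⟨⟨hj1, hj2⟩, huv⟩]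
        simp only [hf, if_pos hq, if_pos hr]
        rw [hGv]
      · simp only [hf, if_pos hq, if_pos hr]
        refine ⟨?_, ?_, ?_, ?_⟩
        · exact (le_max_left _ _).trans (hDe ▸ hDi.le)
        · exact (le_max_right _ _).trans (hDe ▸ hDi.le)
        · exact (le_max_left _ _).trans hj2.le
        · exact (le_max_right _ _).trans hj2.le
    have hinv : 1 / D ≤ 2 ^ ((i : ℝ) + 1) := by
      rw [div_le_iff₀ hD0]
      have h1 := mul_le_mul_of_nonneg_left hspec (show 0 ≤ (2 : ℝ) ^ ((i : ℝ) + 1) by positivity)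
      rw [two_mul_two, add_neg_cancel, Real.rpow_zero] at h1
      exact h1
    have hsingle : 2 ^ ((i : ℝ) + 1) * tb i j q r ≤
        ∑ i ∈ range I, ∑ j ∈ range J, 2 ^ ((i : ℝ) + 1) * tb i j q r := by
      refine le_trans ?_ (Finset.single_le_sum
        (f := fun i : ℕ => ∑ j ∈ range J, 2 ^ ((i : ℝ) + 1) * tb i j q r) ?_
        (Finset.mem_range.2 hiI))
      · exact Finset.single_le_sum (f := fun j : ℕ => 2 ^ ((i : ℝ) + 1) * tb i j q r)
          (fun j' hj' => mul_nonneg (by positivity)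
            (htb0 i j' hiI (Finset.mem_range.1 hj') q r)) (Finset.mem_range.2 hjJ)
      · intro i' hi'
        exact Finset.sum_nonneg fun j' hj' => mul_nonneg (by positivity)
          (htb0 i' j' (Finset.mem_range.1 hi') (Finset.mem_range.1 hj') q r)
    have hfin : ψ q * ψ r / D * A (q, r) ≤ 128 * M * (ψ q * ψ r) +
        2 ^ ((i : ℝ) + 1) * tb i j q r := by
      have hA1 : A (q, r) ≤ 64 * 2 ^ (-(i : ℝ)) * M + Gv := hAk.trans hGk'
      calc ψ q * ψ r / D * A (q, r) = ψ q * ψ r * (1 / D) * A (q, r) := by ring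
        _ ≤ ψ q * ψ r * 2 ^ ((i : ℝ) + 1) * A (q, r) := by
            refine mul_le_mul_of_nonneg_right ?_ (hA0 _)
            exact mul_le_mul_of_nonneg_left hinv hψψ
        _ ≤ ψ q * ψ r * 2 ^ ((i : ℝ) + 1) * (64 * 2 ^ (-(i : ℝ)) * M + Gv) :=
            mul_le_mul_of_nonneg_left hA1 (by positivity)
        _ = 64 * M * (ψ q * ψ r) * (2 ^ ((i : ℝ) + 1) * 2 ^ (-(i : ℝ))) +
              2 ^ ((i : ℝ) + 1) * (ψ q * ψ r * Gv) := by ring
        _ = 128 * M * (ψ q * ψ r) + 2 ^ ((i : ℝ) + 1) * tb i j q r := by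
            rw [two_mul_two, htbv, show (i : ℝ) + 1 + -(i : ℝ) = 1 by ring, Real.rpow_one]
            ring
    linarith only [hfin, hsingle]
  -- sum over the shifts
  have hEn : ∑ g ∈ Γ, m g * En ψ S g = ∑ p ∈ S ×ˢ S, (if DD p.1 p.2 (ψ p.1) (ψ p.2) < 1 / 4 then
      ψ p.1 * ψ p.2 / DD p.1 p.2 (ψ p.1) (ψ p.2) * A p else 0) := by
    unfold En
    simp only [Finset.mul_sum]
    rw [Finset.sum_comm]
    refine Finset.sum_congr rfl fun p _ => ?_
    by_cases hD : DD p.1 p.2 (ψ p.1) (ψ p.2) < 1 / 4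
    · rw [if_pos hD]
      simp only [hA]
      rw [Finset.mul_sum]
      refine Finset.sum_congr rfl fun g _ => ?_
      by_cases hz : ∃ z : ℤ, |(z : ℝ) - (((p.2 / Nat.gcd p.1 p.2 : ℕ) : ℝ) -
          (p.1 / Nat.gcd p.1 p.2 : ℕ)) * g| < 2 * DD p.1 p.2 (ψ p.1) (ψ p.2)
      · rw [if_pos hz, if_pos ⟨hD, hz⟩]
        ring
      · rw [if_neg hz, if_neg (fun h => hz h.2)]
        ring
    · rw [if_neg hD]
      refine Finset.sum_eq_zero fun g _ => ?_
      rw [if_neg (fun h => hD h.1), mul_zero]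
  rw [hEn]
  refine (Finset.sum_le_sum hpair).trans ?_
  rw [Finset.sum_add_distrib, Finset.sum_add_distrib]
  have hF0 : 0 ≤ F := by linarith only [hF1]
  have t1 : ∑ p ∈ S ×ˢ S, (if p.1 = p.2 then ψ p.1 else 0) = F := by
    rw [Finset.sum_product]
    simp only
    rw [hF]
    refine Finset.sum_congr rfl fun q hq => ?_
    rw [Finset.sum_ite_eq, if_pos hq]
  have t2 : ∑ p ∈ S ×ˢ S, 128 * M * (ψ p.1 * ψ p.2) = 128 * M * F ^ 2 := by
    rw [← Finset.mul_sum, Finset.sum_product, hF, sq, Finset.sum_mul_sum]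
  have t3 : ∑ p ∈ S ×ˢ S, ∑ i ∈ range I, ∑ j ∈ range J, 2 ^ ((i : ℝ) + 1) * tb i j p.1 p.2 ≤
      (C * (1 / (1 - a)) * K) * F ^ (2 * (1 / 2 + η ^ 2 / 512)) := by
    have hFp : 0 ≤ F ^ (2 * (1 / 2 + η ^ 2 / 512)) := Real.rpow_nonneg hF0 _
    calc ∑ p ∈ S ×ˢ S, ∑ i ∈ range I, ∑ j ∈ range J, 2 ^ ((i : ℝ) + 1) * tb i j p.1 p.2
        = ∑ i ∈ range I, ∑ j ∈ range J, 2 ^ ((i : ℝ) + 1) * ∑ p ∈ S ×ˢ S, tb i j p.1 p.2 := by
          rw [Finset.sum_comm]
          refine Finset.sum_congr rfl fun i _ => ?_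
          rw [Finset.sum_comm]
          refine Finset.sum_congr rfl fun j _ => ?_
          rw [Finset.mul_sum]
      _ ≤ ∑ i ∈ range I, ∑ j ∈ range J, C * ((j : ℝ) + 2) ^ k *
            2 ^ (-(η ^ 2 / 256 * i + η ^ 3 / 512 * j)) * F ^ (2 * (1 / 2 + η ^ 2 / 512)) := by
          refine Finset.sum_le_sum fun i hi => Finset.sum_le_sum fun j hj => ?_
          have hi' := Finset.mem_range.1 hi
          have hj' := Finset.mem_range.1 hj
          have h1 := hGT i j ⟨hi', hj'⟩ N f hf0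
          rw [hfF] at h1
          refine le_trans (mul_le_mul_of_nonneg_left ?_ (by positivity)) h1
          have h2 : TB (G i j) i j N f = ∑ p ∈ Icc 1 N ×ˢ Icc 1 N, tb i j p.1 p.2 := by
            rw [Finset.sum_product]
            rfl
          rw [h2]
          exact Finset.sum_le_sum_of_subset_of_nonneg (Finset.product_subset_product hSsub hSsub)
            (fun p _ _ => htb0 i j hi' hj' p.1 p.2)
      _ = C * (∑ i ∈ range I, a ^ i) * (∑ j ∈ range J, ((j : ℝ) + 2) ^ k * b ^ j) *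
            F ^ (2 * (1 / 2 + η ^ 2 / 512)) := by
          have e : ∀ i j : ℕ, C * ((j : ℝ) + 2) ^ k *
              2 ^ (-(η ^ 2 / 256 * i + η ^ 3 / 512 * j)) * F ^ (2 * (1 / 2 + η ^ 2 / 512)) =
              (C * F ^ (2 * (1 / 2 + η ^ 2 / 512)) * a ^ i) * (((j : ℝ) + 2) ^ k * b ^ j) := by
            intro i j
            have e1 : (2 : ℝ) ^ (-(η ^ 2 / 256 * i + η ^ 3 / 512 * j)) = a ^ i * b ^ j := by
              rw [← Real.rpow_natCast a i, ← Real.rpow_natCast b j, ha, hb, two_pow_pow,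
                two_pow_pow, two_mul_two]
              congr 1
              ring
            rw [e1]
            ring
          simp only [e]
          rw [← Finset.sum_mul_sum, ← Finset.mul_sum]
          ring
      _ ≤ C * (1 / (1 - a)) * K * F ^ (2 * (1 / 2 + η ^ 2 / 512)) := by
          refine mul_le_mul_of_nonneg_right ?_ hFp
          refine mul_le_mul (mul_le_mul_of_nonneg_left (geom_sum_le ha0 ha1 I) hC.le) (hK J) ?_
            (by positivity)
          exact Finset.sum_nonneg fun j _ => by positivity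
  have t4 : F ≤ F ^ (2 * (1 / 2 + η ^ 2 / 512)) := by
    calc F = F ^ (1 : ℝ) := (Real.rpow_one F).symm
      _ ≤ _ := Real.rpow_le_rpow_of_exponent_le hF1 (by linarith only [hη20])
  rw [t1, t2]
  nlinarith only [t3, t4]

end Vale.P028.Y
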