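import Vale.Agent.P028.MathlibUsed
import Vale.Agent.P028.Y.En
import Vale.Agent.P028.Y.Cov

/-!
# The exceptional shifts have Hausdorff dimension zero
-/

namespace Vale.P028.Y

open Finset Vale.P028 MeasureTheory
open scoped ENNReal NNReal

theorem distInt_sub_int (t : ℝ) (n : ℤ) : distInt (t - n) = distInt t := by
  unfold distInt
  rw [round_sub_intCast]
  congr 1
  push_cast
  ring

theorem W_add_int (γ : ℝ) (ψ : ℕ → ℝ) (n : ℤ) : W (γ + n) ψ = W γ ψ := by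
  unfold W
  have : ∀ (q : ℕ) (x : ℝ), distInt ((q : ℝ) * x - (γ + n)) = distInt ((q : ℝ) * x - γ) := by
    intro q x
    rw [← sub_sub, distInt_sub_int]
  simp only [this]

open Classical in
/-- Full measure from small energies. -/
theorem full_of_En (γ : ℝ) (ψ : ℕ → ℝ) (S : ℕ → Finset ℕ)
    (hS : ∀ k, ∀ q ∈ S k, k ≤ q ∧ 0 < ψ q ∧ ψ q ≤ 1 / 2) (hF : ∀ k, 0 < ∑ q ∈ S k, ψ q)
    (A : ℝ) (hA : 0 ≤ A) (h : ∀ k₀, ∃ k, k₀ ≤ k ∧ En ψ (S k) γ ≤ A * (∑ q ∈ S k, ψ q) ^ 2) :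
    volume (W γ ψ)ᶜ = 0 := by
  refine fullMeasure_of_blocks γ ψ A hA ?_
  intro N
  obtain ⟨k, hk, hEn⟩ := h N
  refine ⟨S k, fun _ => 1, ?_, fun _ _ => zero_le_one, ?_, ?_⟩
  · intro q hq
    obtain ⟨h1, h2, h3⟩ := hS k q hq
    exact ⟨hk.trans h1, h2, h3⟩
  · simp only [one_mul]
    exact hF k
  · intro T hT
    simp only [one_mul]
    refine le_trans ?_ hEn
    unfold En
    have hD0 : ∀ p ∈ S k ×ˢ S k, 0 ≤ DD p.1 p.2 (ψ p.1) (ψ p.2) := by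
      intro p hp
      rw [Finset.mem_product] at hp
      have h1 := (hS k p.1 hp.1).2.1
      unfold DD
      refine div_nonneg ?_ (Nat.cast_nonneg _)
      exact le_trans (mul_nonneg (Nat.cast_nonneg _) h1.le) (le_max_left _ _)
    have hTS : T ⊆ S k ×ˢ S k := fun p hp => Finset.mem_product.2 ⟨(hT p hp).1, (hT p hp).2.1⟩
    calc ∑ p ∈ T, ψ p.1 * ψ p.2 / DD p.1 p.2 (ψ p.1) (ψ p.2)
        = ∑ p ∈ T, (if (DD p.1 p.2 (ψ p.1) (ψ p.2) < 1 / 4 ∧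
            ∃ m : ℤ, |(m : ℝ) - (((p.2 / Nat.gcd p.1 p.2 : ℕ) : ℝ) -
              (p.1 / Nat.gcd p.1 p.2 : ℕ)) * γ| < 2 * DD p.1 p.2 (ψ p.1) (ψ p.2)) then
            ψ p.1 * ψ p.2 / DD p.1 p.2 (ψ p.1) (ψ p.2) else 0) := by
          refine Finset.sum_congr rfl fun p hp => ?_
          rw [if_pos (hT p hp).2.2]
      _ ≤ _ := Finset.sum_le_sum_of_subset_of_nonneg hTS (fun p hp _ => by
          split_ifs
          · rw [Finset.mem_product] at hp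
            have h1 := (hS k p.1 hp.1).2.1
            have h2 := (hS k p.2 hp.2).2.1
            exact div_nonneg (mul_nonneg h1.le h2.le) (hD0 p (Finset.mem_product.2 hp))
          · exact le_rfl)

/-- The set where all the energies are large has zero Hausdorff measure of every exponent. -/
theorem hausdorff_zero (ψ : ℕ → ℝ) (S : ℕ → Finset ℕ)
    (hS : ∀ k, ∀ q ∈ S k, 0 < q ∧ 0 < ψ q) (hF : ∀ k : ℕ, (k : ℝ) + 1 ≤ ∑ q ∈ S k, ψ q)
    (k₀ : ℕ) {η : ℝ} (hη : 0 < η) (hη1 : η ≤ 1 / 2) :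
    μH[η] {γ : ℝ | γ ∈ Set.Ico (0 : ℝ) 1 ∧
      ∀ k, k₀ ≤ k → 129 * (∑ q ∈ S k, ψ q) ^ 2 < En ψ (S k) γ} = 0 := by
  obtain ⟨θ, C, hθ1, hC, hav⟩ := energy_avg hη hη1
  refine cover_lemma _ (fun γ hγ => hγ.1) hη (by linarith only [hη1]) ?_
  intro ε hε
  have h2θ : 0 < 2 - 2 * θ := by linarith only [hθ1]
  -- choose k
  have ht : Filter.Tendsto (fun k : ℕ => C * ((k : ℝ) + 1) ^ (-(2 - 2 * θ))) Filter.atTop
      (nhds 0) := by
    have h1 : Filter.Tendsto (fun k : ℕ => ((k : ℝ) + 1) ^ (-(2 - 2 * θ))) Filter.atTop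
        (nhds 0) := by
      have h2 : Filter.Tendsto (fun k : ℕ => (k : ℝ) + 1) Filter.atTop Filter.atTop :=
        Filter.tendsto_atTop_add_const_right _ _ tendsto_natCast_atTop_atTop
      exact (tendsto_rpow_neg_atTop h2θ).comp h2
    have := h1.const_mul C
    rwa [mul_zero] at this
  obtain ⟨k, hk, hkε⟩ := ((Filter.eventually_ge_atTop k₀).and
    (ht.eventually (gt_mem_nhds hε))).exists
  set F : ℝ := ∑ q ∈ S k, ψ q with hFd
  have hk1 : 0 < (k : ℝ) + 1 := by positivity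
  have hF1 : (k : ℝ) + 1 ≤ F := hF k
  have hF1' : 1 ≤ F := by
    have : (0 : ℝ) ≤ k := Nat.cast_nonneg k
    linarith only [this, hF1]
  have hF0 : 0 < F := by linarith only [hF1']
  obtain ⟨δ, hδ0, hδ⟩ := hav ψ (S k) (hS k) hF1'
  refine ⟨δ, hδ0, ?_⟩
  intro Γ m hΓ hFW
  have h1 := hδ Γ m hFW
  rw [← hFd] at h1
  have h2 : 129 * F ^ 2 * ∑ g ∈ Γ, m g ≤ ∑ g ∈ Γ, m g * En ψ (S k) g := by
    rw [Finset.mul_sum]
    refine Finset.sum_le_sum fun g hg => ?_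
    have h3 := (hΓ g hg).2 k hk
    rw [mul_comm (m g)]
    exact mul_le_mul_of_nonneg_right h3.le (hFW.1 g hg)
  have h3 : F ^ 2 * ∑ g ∈ Γ, m g ≤ C * F ^ (2 * θ) := by nlinarith only [h1, h2]
  have h4 : ∑ g ∈ Γ, m g ≤ C * F ^ (-(2 - 2 * θ)) := by
    have e : F ^ (-(2 - 2 * θ)) = F ^ (2 * θ) / F ^ 2 := by
      rw [show -(2 - 2 * θ) = 2 * θ - 2 by ring, Real.rpow_sub hF0]
      norm_num
    rw [e, ← mul_div_assoc, le_div_iff₀ (by positivity)]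
    linarith only [h3]
  refine h4.trans (le_trans ?_ hkε.le)
  refine mul_le_mul_of_nonneg_left ?_ hC.le
  exact Real.rpow_le_rpow_of_nonpos hk1 hF1 (by linarith only [h2θ])

theorem dimH_zero_of_all {K : Set ℝ} (h : ∀ η : ℝ, 0 < η → η ≤ 1 / 2 → μH[η] K = 0) :
    dimH K = 0 := by
  refine le_antisymm ?_ bot_le
  refine le_of_forall_gt ?_
  intro c hc
  -- choose a small positive real below c
  obtain ⟨x, hx0, hxc⟩ : ∃ x : ℝ≥0, 0 < x ∧ (x : ℝ≥0∞) < c := by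
    obtain ⟨x, hx1, hx2⟩ := ENNReal.lt_iff_exists_nnreal_btwn.1 hc
    exact ⟨x, by exact_mod_cast hx1, hx2⟩
  set y : ℝ≥0 := min x (1 / 2) with hy
  have hy0 : 0 < y := lt_min hx0 (by norm_num)
  have hy2 : (y : ℝ) ≤ 1 / 2 := by
    have : y ≤ 1 / 2 := min_le_right _ _
    exact_mod_cast this
  have h1 := h (y : ℝ) (by exact_mod_cast hy0) hy2
  have h2 : dimH K ≤ y := dimH_le_of_hausdorffMeasure_ne_top (by rw [h1]; exact ENNReal.zero_ne_top)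
  refine lt_of_le_of_lt h2 (lt_of_le_of_lt ?_ hxc)
  exact_mod_cast min_le_left _ _

/-- Blocks of a divergent series. -/
theorem exists_blocks (ψ : ℕ → ℝ) (h0 : ∀ q, 0 ≤ ψ q) (hdiv : ¬ Summable ψ) (n : ℕ) (B : ℝ) :
    ∃ S : Finset ℕ, (∀ q ∈ S, n ≤ q ∧ 0 < ψ q) ∧ B ≤ ∑ q ∈ S, ψ q := by
  classical
  have h1 := (not_summable_iff_tendsto_nat_atTop_of_nonneg h0).1 hdiv
  obtain ⟨m, hm1, hm2⟩ := ((h1.eventually_ge_atTop (B + ∑ i ∈ range n, ψ i)).and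
    (Filter.eventually_ge_atTop n)).exists
  refine ⟨(Ico n m).filter (fun q => 0 < ψ q), ?_, ?_⟩
  · intro q hq
    rw [Finset.mem_filter, Finset.mem_Ico] at hq
    exact ⟨hq.1.1, hq.2⟩
  · have e : ∑ q ∈ (Ico n m).filter (fun q => 0 < ψ q), ψ q = ∑ q ∈ Ico n m, ψ q := by
      rw [Finset.sum_filter]
      refine Finset.sum_congr rfl fun q _ => ?_
      split_ifs with h
      · rfl
      · exact le_antisymm (h0 q) (not_lt.1 h)
    rw [e, Finset.sum_Ico_eq_sub _ hm2]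
    linarith only [hm1]

/-- For every `ψ ≥ 0` with divergent sum, the shifts `γ` for which `W γ ψ` is not of full measure
form a set of Hausdorff dimension zero. -/
theorem dimH_exceptional (ψ : ℕ → ℝ) (h0 : ∀ q, 0 ≤ ψ q) (hdiv : ¬ Summable ψ) :
    dimH {γ : ℝ | volume (W γ ψ)ᶜ ≠ 0} = 0 := by
  by_cases hbig : {q : ℕ | 1 / 2 < ψ q}.Infinite
  · have : {γ : ℝ | volume (W γ ψ)ᶜ ≠ 0} = ∅ := by
      rw [Set.eq_empty_iff_forall_notMem]
      intro γ hγ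
      apply hγ
      have hW : W γ ψ = Set.univ := by
        rw [Set.eq_univ_iff_forall]
        intro x
        have h1 : ({q : ℕ | 1 / 2 < ψ q} \ {0}).Infinite := hbig.sdiff (Set.finite_singleton 0)
        refine h1.mono ?_
        intro q hq
        refine ⟨Nat.pos_of_ne_zero hq.2, ?_⟩
        exact lt_of_le_of_lt (distInt_le_half _) hq.1
      rw [hW, Set.compl_univ, measure_empty]
    rw [this, dimH_empty]
  rw [Set.not_infinite] at hbig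
  obtain ⟨N₀, hN₀⟩ : ∃ N₀ : ℕ, ∀ q, N₀ ≤ q → ψ q ≤ 1 / 2 := by
    obtain ⟨M, hM⟩ := hbig.bddAbove
    refine ⟨M + 1, fun q hq => ?_⟩
    by_contra hcon
    rw [not_le] at hcon
    have := hM hcon
    omega
  have hex : ∀ k : ℕ, ∃ S : Finset ℕ, (∀ q ∈ S, k + N₀ + 1 ≤ q ∧ 0 < ψ q) ∧
      (k : ℝ) + 1 ≤ ∑ q ∈ S, ψ q := fun k => exists_blocks ψ h0 hdiv (k + N₀ + 1) _
  choose S hS hSF using hex
  set K : ℕ → Set ℝ := fun k₀ => {γ : ℝ | γ ∈ Set.Ico (0 : ℝ) 1 ∧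
      ∀ k, k₀ ≤ k → 129 * (∑ q ∈ S k, ψ q) ^ 2 < En ψ (S k) γ} with hK
  have hK0 : ∀ k₀, dimH (K k₀) = 0 := by
    intro k₀
    refine dimH_zero_of_all fun η hη hη1 => ?_
    exact hausdorff_zero ψ S (fun k q hq => ⟨by have := (hS k q hq).1; omega, (hS k q hq).2⟩)
      hSF k₀ hη hη1
  have hsub : ∀ γ ∈ Set.Ico (0 : ℝ) 1, volume (W γ ψ)ᶜ ≠ 0 → ∃ k₀, γ ∈ K k₀ := by
    intro γ hγ hne
    by_contra hcon
    push Not at hcon
    apply hne
    refine full_of_En γ ψ S (fun k q hq => ⟨by have := (hS k q hq).1; omega, (hS k q hq).2,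
      hN₀ q (by have := (hS k q hq).1; omega)⟩) (fun k => ?_) 129 (by norm_num) ?_
    · have h1 := hSF k
      have : (0 : ℝ) ≤ k := Nat.cast_nonneg k
      linarith only [h1, this]
    · intro k₀
      by_contra hc
      push Not at hc
      exact hcon k₀ ⟨hγ, fun k hk => hc k hk⟩
  have hcov : {γ : ℝ | volume (W γ ψ)ᶜ ≠ 0} ⊆
      ⋃ n : ℤ, ⋃ k₀ : ℕ, (fun x : ℝ => x + n) '' (K k₀) := by
    intro γ hγ
    have hfr : γ = Int.fract γ + (⌊γ⌋ : ℝ) := (Int.fract_add_floor γ).symm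
    have hne : volume (W (Int.fract γ) ψ)ᶜ ≠ 0 := by
      have : W γ ψ = W (Int.fract γ) ψ := by
        conv_lhs => rw [hfr]
        exact W_add_int _ _ _
      rw [← this]
      exact hγ
    obtain ⟨k₀, hk₀⟩ := hsub (Int.fract γ) ⟨Int.fract_nonneg γ, Int.fract_lt_one γ⟩ hne
    rw [Set.mem_iUnion]
    refine ⟨⌊γ⌋, ?_⟩
    rw [Set.mem_iUnion]
    exact ⟨k₀, Int.fract γ, hk₀, hfr.symm⟩
  refine le_antisymm ((dimH_mono hcov).trans ?_) bot_le
  rw [dimH_iUnion]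
  refine iSup_le fun n => ?_
  rw [dimH_iUnion]
  refine iSup_le fun k₀ => ?_
  have : Isometry (fun x : ℝ => x + n) := isometry_add_right (n : ℝ)
  rw [this.dimH_image, hK0]

end Vale.P028.Y
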